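import Crest.Agent.N337.Gas.Loop
import Crest.Agent.N337.L4.Loop
import Crest.Agent.N337.L4.Gram

/-!
# Row 337, block (c): the linear key estimate TK on the loop gas (definitions, statements)

Medium model `(p, u)`: the down loops `w` have law `nu (qq p) u`, given `w` the coins have law
`Pw (pin p w)`.  `Ph c ξ = ∑ c g` over the loops of `ξ`, `U p c w` = mean of the sum over the UP
loops given `w`.  All hypotheses are junk free: `Gw w g` is an abstract predicate.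
-/

set_option autoImplicit false
set_option linter.unusedSectionVars false

namespace Crest.Agent.N337.TK

open Finset Crest.Agent.N337.Rep Crest.Agent.N337.LY0 Crest.Agent.N337.Op Crest.Agent.N337.Gas

open Classical in
/-- indicator of a proposition. -/
noncomputable def i1 (P : Prop) : ℝ := if P then 1 else 0

variable {Λ : Type} [Fintype Λ] [DecidableEq Λ] {T : ℕ} [NeZero T] (ex ey : Fin T → Λ)

/-- linear statistic of the loops. -/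
noncomputable def Ph (c : Lp T Λ → ℝ) (ξ : Fin T → Bool) : ℝ := ∑ g ∈ L ex ey ξ, c g

/-- mean of the statistic of the up loops given the down loops `w`. -/
noncomputable def U (p : Fin T → ℝ) (c : Lp T Λ → ℝ) (w : Finset (Lp T Λ)) : ℝ :=
  Op.ex (Pw (pin ex ey p w)) (Ph ex ey (off (· ∈ w) c))

/-- probability that `g` is an up loop given `w`. -/
noncomputable def Up (p : Fin T → ℝ) (w : Finset (Lp T Λ)) (g : Lp T Λ) : ℝ :=
  if g ∈ w then 0 else qq ex ey (pin ex ey p w) {g}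

/-- winding number. -/
def wd (g : Lp T Λ) : ℕ := (univ.filter fun x : Λ => (0, x) ∈ g.2).card

/-- the loop obeys the rule `ok` from each of its roots. -/
def Slw (ok : (ℕ → Fin T × Λ) → ℕ → Prop) (g : Lp T Λ) : Prop :=
  ∀ ξ r, lp ex ey ξ (0, r) = g → ∀ i, ok (Arc.arc ex ey (0, r) ξ) i

/-- **HIT**: an initial arc of a loop of the class `G` whose tip is off the zone `Z r` closes to a
loop of `G` with probability at most `q`. -/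
def Hit (ok : (ℕ → Fin T × Λ) → ℕ → Prop) (Z : Λ → Finset Λ) (p : Fin T → ℝ) (G : Lp T Λ → Prop)
    (q : ℝ) : Prop :=
  ∀ r ξ n, Pw p ξ ≠ 0 → G (lp ex ey ξ (0, r)) → n < per (Sg ex ey ξ) (0, r) →
    (Arc.arc ex ey (0, r) ξ n).2 ∉ Z r →
    PH.P (Arc.pb p) (Arc.X ex ey ok (0, r) (n + 1)) (fun η => i1 (G (lp ex ey η (0, r)))) ξ ≤ q

/-- **cross Gram bound** for the product law `Pw p` on the class `S`. -/
def Crs (p : Fin T → ℝ) (S : Lp T Λ → Prop) (D : Lp T Λ → ℝ) (κ : ℝ) : Prop :=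
  ∀ a b : Lp T Λ → ℝ, (∀ g, a g ≠ 0 → S g) → (∀ g, b g ≠ 0 → S g) →
    (Op.ex (Pw p) (fun ξ => Ph ex ey (fun g => a g * D g) ξ * Ph ex ey b ξ) -
      Op.ex (Pw p) (Ph ex ey fun g => a g * D g) * Op.ex (Pw p) (Ph ex ey b) -
      Op.ex (Pw p) (Ph ex ey fun g => a g * D g * b g)) ^ 2 ≤
    κ * Op.ex (Pw p) (Ph ex ey fun g => a g ^ 2 * D g) * Op.ex (Pw p) (Ph ex ey fun g => b g ^ 2)

open Classical in
/-- the alive polymers of `(p, v)` live on at most `N` non adjacent blocks `B i`; `Bp i` contains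
the ends of the steps that meet `B i`, is `near` to `≤ n1` slots and meets `≤ n2` zones. -/
def Blk (near : Λ → Λ → Prop) (Z : Λ → Finset Λ) (N n1 n2 : ℕ) (p : Fin T → ℝ)
    (v : Lp T Λ → ℝ) : Prop :=
  ∃ (ι : Type) (_ : Fintype ι) (_ : DecidableEq ι) (B Bp : ι → Finset Λ), Apart ex ey B ∧
    (∀ g, qq ex ey p {g} ≠ 0 → v g ≠ 0 → ∃ i, In (B i) g) ∧ (∀ i, B i ⊆ Bp i) ∧
    (∀ i s, ex s ∈ B i ∨ ey s ∈ B i → ex s ∈ Bp i ∧ ey s ∈ Bp i) ∧ Fintype.card ι ≤ N ∧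
    (∀ i, (univ.filter fun y => ∃ x ∈ Bp i, near y x).card ≤ n1) ∧
    ∀ i, (univ.filter fun r => ∃ x ∈ Bp i, x ∈ Z r).card ≤ n2

/-- **LP form**: the fibres `(x i, v i)` with masses `m i` (total `≤ nk` copies of the law) are
children with property `Bl`. -/
def LP (p : Fin T → ℝ) (u : Lp T Λ → ℝ) (C0 nk : ℝ) (R : Finset (Lp T Λ) → ℝ)
    (Bl : (Fin T → ℝ) → (Lp T Λ → ℝ) → Prop) : Prop :=
  ∃ (I : Type) (_ : Fintype I) (m : I → ℝ) (x : I → Finset (Lp T Λ)) (v : I → Lp T Λ → ℝ),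
    (∀ i, 0 ≤ m i) ∧
    (∀ i, m i ≠ 0 → qq ex ey p (x i) ≠ 0 ∧ (∀ g, 0 ≤ v i g) ∧ Bl (pin ex ey p (x i)) (v i)) ∧
    (∀ G : Finset (Lp T Λ) → ℝ, (∀ w, 0 ≤ G w) →
      ∑ i, m i * Op.ex (nu (qq ex ey (pin ex ey p (x i))) (v i)) (fun A => G (x i ∪ A)) ≤
        nk * Op.ex (nu (qq ex ey p) u) G) ∧
    ∀ F : Finset (Lp T Λ) → ℝ, var (nu (qq ex ey p) u) F ≤
      C0 * (Dir (nu (qq ex ey p) u) F +
        ∑ i, m i * var (nu (qq ex ey (pin ex ey p (x i))) (v i)) fun A => F (x i ∪ A)) +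
      Op.ex (nu (qq ex ey p) u) fun w => R w * F w ^ 2

/-- the event `E` has probability `≤ ε` given that `g` is an up loop. -/
def Rare (p : Fin T → ℝ) (u : Lp T Λ → ℝ) (g : Lp T Λ) (E : Finset (Lp T Λ) → Prop) (ε : ℝ) :
    Prop :=
  Op.ex (nu (qq ex ey p) u) (fun w => i1 (E w) * Up ex ey p w g) ≤
    ε * Op.ex (nu (qq ex ey p) u) fun w => Up ex ey p w g

/-- hypotheses common to TKa and TKb; `Sa` = allowed test loops. -/
structure HA (p : Fin T → ℝ) (u D : Lp T Λ → ℝ) (Sa : Lp T Λ → Prop)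
    (Gw : Finset (Lp T Λ) → Lp T Λ → Prop) (κ ε : ℝ) : Prop where
  hp : ∀ s, 0 ≤ p s ∧ p s ≤ 1
  hu : ∀ g, 0 ≤ u g ∧ u g ≤ 1
  hD : ∀ g, 0 ≤ D g ∧ D g ≤ 1
  κ0 : 0 ≤ κ
  ε0 : 0 ≤ ε
  crs : ∀ w, nu (qq ex ey p) u w ≠ 0 →
    Crs ex ey (pin ex ey p w) (fun g => g ∉ w ∧ Gw w g) D (κ ^ 2)
  rare : ∀ g, Sa g → Rare ex ey p u g (fun w => ¬ Gw w g) ε

/-- additional hypotheses of TKb. -/
structure HB (p : Fin T → ℝ) (u D : Lp T Λ → ℝ) (Sa : Lp T Λ → Prop)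
    (Gw : Finset (Lp T Λ) → Lp T Λ → Prop) (Bad : Finset (Lp T Λ) → Prop)
    (ws : Fin T → Fin T) (near : Λ → Λ → Prop) (Z : Λ → Finset Λ) (ε q δ C0 nk Nr : ℝ)
    (Bn N n1 n2 k0 Km : ℕ) : Prop where
  hws : ∀ s, ws s ≤ s
  hB : (univ.image ws).card ≤ Bn
  q0 : 0 < q
  δ0 : 0 ≤ δ
  hC0 : 0 ≤ C0
  Nr0 : 0 ≤ Nr
  slow : ∀ g, Sa g → Slw ex ey (Arc.spd ws near) g ∧ wd g ≤ Km
  small : ∀ g, D g ≤ δ * wd g
  hit : ∀ w, nu (qq ex ey p) u w ≠ 0 → Hit ex ey (Arc.spd ws near) Z (pin ex ey p w)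
    (fun g => g ∉ w ∧ Gw w g ∧ 2 ^ k0 ≤ wd g) q
  bad : ∀ g, Sa g → Rare ex ey p u g Bad ε
  death : ∀ w, nu (qq ex ey p) u w ≠ 0 → ¬ Bad w → ∀ g ∈ w, Gw (w.erase g) g
  birth : ∀ w, nu (qq ex ey p) u w ≠ 0 → ¬ Bad w →
    ∑ g, u g * Up ex ey p w g * i1 (¬ Gw w g) ≤ ε
  lp : LP ex ey p u C0 nk (fun w => Nr * (ε + i1 (Bad w))) (Blk ex ey near Z N n1 n2)

/-- gain of the block terms. -/
noncomputable def κB (q δ : ℝ) (Bn N n1 n2 k0 Km : ℕ) : ℝ :=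
  (Nat.log 2 Km + 1) * (Nat.log 2 N + 1) *
    (192 * (Bn * n1) * δ * 2 ^ k0 + 3072 * q * (Bn * n1) + 24 * n2 / 2 ^ k0)

/-- loss on the bad part of the block terms. -/
noncomputable def cB (Bn N n1 Km : ℕ) : ℝ := (Nat.log 2 Km + 1) * (Nat.log 2 N + 1) * (48 * (Bn * n1))

/-- **TKa.** -/
def TKa (p : Fin T → ℝ) (u D : Lp T Λ → ℝ) (Sa : Lp T Λ → Prop) (κ : ℝ) : Prop :=
  ∀ a : Lp T Λ → ℝ, (∀ g, a g ≠ 0 → Sa g) →
    (Op.ex (nu (qq ex ey p) u) fun w =>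
      var (Pw (pin ex ey p w)) (Ph ex ey (off (· ∈ w) fun g => a g * D g))) ≤
    Op.ex (nu (qq ex ey p) u) (U ex ey p fun g => (a g * D g) ^ 2) +
      κ * Op.ex (nu (qq ex ey p) u) (U ex ey p fun g => a g ^ 2 * D g)

/-- **TKb.** -/
def TKb (p : Fin T → ℝ) (u D : Lp T Λ → ℝ) (Sa : Lp T Λ → Prop) (κ : ℝ) : Prop :=
  ∀ a : Lp T Λ → ℝ, (∀ g, a g ≠ 0 → Sa g) →
    var (nu (qq ex ey p) u) (U ex ey p fun g => a g * D g) ≤
      κ * Op.ex (nu (qq ex ey p) u) (U ex ey p fun g => a g ^ 2 * D g)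

/-- gain in TKa (`t > 0` is free). -/
noncomputable def κa (n : ℕ) (κ ε t : ℝ) : ℝ := κ + t * (1 + κ) + (1 + 1 / t) * n * ε

/-- gain in TKb. -/
noncomputable def κb (n : ℕ) (κ ε q δ C0 nk Nr : ℝ) (Bn N n1 n2 k0 Km : ℕ) : ℝ :=
  C0 * (2 * κ ^ 2 + nk * (κB q δ Bn N n1 n2 k0 Km + cB Bn N n1 Km * ε) + 6 * (n + 1) ^ 2 * ε) +
    2 * Nr * n * ε

def TKaStmt : Prop :=
  ∀ (Λ : Type) [Fintype Λ] [DecidableEq Λ] (T : ℕ) [NeZero T] (ex ey : Fin T → Λ)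
    (p : Fin T → ℝ) (u D : Lp T Λ → ℝ) (Sa : Lp T Λ → Prop)
    (Gw : Finset (Lp T Λ) → Lp T Λ → Prop) (κ ε t : ℝ), HA ex ey p u D Sa Gw κ ε → 0 < t →
    TKa ex ey p u D Sa (κa (Fintype.card Λ) κ ε t)

def TKbStmt : Prop :=
  ∀ (Λ : Type) [Fintype Λ] [DecidableEq Λ] (T : ℕ) [NeZero T] (ex ey : Fin T → Λ)
    (p : Fin T → ℝ) (u D : Lp T Λ → ℝ) (Sa : Lp T Λ → Prop)
    (Gw : Finset (Lp T Λ) → Lp T Λ → Prop) (Bad : Finset (Lp T Λ) → Prop)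
    (ws : Fin T → Fin T) (near : Λ → Λ → Prop) (Z : Λ → Finset Λ) (κ ε q δ C0 nk Nr : ℝ)
    (Bn N n1 n2 k0 Km : ℕ), HA ex ey p u D Sa Gw κ ε →
    HB ex ey p u D Sa Gw Bad ws near Z ε q δ C0 nk Nr Bn N n1 n2 k0 Km →
    TKb ex ey p u D Sa (κb (Fintype.card Λ) κ ε q δ C0 nk Nr Bn N n1 n2 k0 Km)

end Crest.Agent.N337.TK
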