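import Crest.Agent.N337.TK.Main
import Crest.Agent.N337.M.TkCfg

/-!
# Row 337, block TK with a support bound (helper42): TKa, births and deaths, residual
-/

set_option autoImplicit false
set_option linter.unusedSectionVars false

namespace Crest.Agent.N337.TS

open Finset Crest.Agent.N337.Rep Crest.Agent.N337.Op Crest.Agent.N337.Gas Crest.Agent.N337.TK
open Crest.Agent.N337.Pc (up Phb U_eq up_qq up_nn)

variable {Λ : Type} [Fintype Λ] [DecidableEq Λ] {T : ℕ} [NeZero T]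

/-- the roots of the alive loops lie in a set of at most `n` slots. -/
def Sup (u D : Lp T Λ → ℝ) (n : ℕ) : Prop :=
  ∃ S : Finset Λ, S.card ≤ n ∧ ∀ g, u g ≠ 0 ∨ D g ≠ 0 → ∀ x, (0, x) ∈ g.2 → x ∈ S

variable {ex ey : Fin T → Λ} {p : Fin T → ℝ} {u D a c c' : Lp T Λ → ℝ} {n : ℕ}
  {w : Finset (Lp T Λ)} {Sa : Lp T Λ → Prop} {Gw : Finset (Lp T Λ) → Lp T Λ → Prop}
  {Bad : Finset (Lp T Λ) → Prop} {κ ε : ℝ}

lemma i1_nn (P : Prop) : 0 ≤ i1 P := by unfold i1; split_ifs <;> norm_num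
lemma i1_le (P : Prop) : i1 P ≤ 1 := by unfold i1; split_ifs <;> norm_num
lemma i1_pos {P : Prop} (h : P) : i1 P = 1 := if_pos h
lemma i1_neg {P : Prop} (h : ¬ P) : i1 P = 0 := if_neg h

lemma Sup.card (h : Sup u D n) (ξ : Fin T → Bool) {A : Finset (Lp T Λ)} (hA : A ⊆ L ex ey ξ)
    (hc : ∀ g ∈ A, u g ≠ 0 ∨ D g ≠ 0) : A.card ≤ n := by
  obtain ⟨S, h1, h2⟩ := h
  have := Pc.card_L_le (ex := ex) (ey := ey) ξ (Q := A) fun g hg => h2 g (hc g hg)
  rw [inter_eq_right.2 hA] at this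
  exact this.trans h1

lemma Sup.sq (h : Sup u D n) (hc : ∀ g, c g ≠ 0 → u g ≠ 0 ∨ D g ≠ 0) (ξ : Fin T → Bool) :
    Ph ex ey c ξ ^ 2 ≤ n * Ph ex ey (fun g => c g ^ 2) ξ := by
  classical
  rw [Ph, ← sum_filter_ne_zero]
  refine sq_sum_le_card_mul_sum_sq.trans (mul_le_mul ?_ (sum_le_sum_of_subset_of_nonneg
    (filter_subset _ _) fun _ _ _ => sq_nonneg _) (sum_nonneg fun _ _ => sq_nonneg _)
    (Nat.cast_nonneg _))
  exact_mod_cast h.card ξ (filter_subset _ _) fun g hg => hc g (mem_filter.1 hg).2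

lemma U_sum (hw : qq ex ey p w ≠ 0) (c : Lp T Λ → ℝ) :
    U ex ey p c w = ∑ g, c g * Up ex ey p w g := by
  rw [U_eq hw]; exact sum_congr rfl fun g _ => by rw [up_qq hw]

lemma Up_nn (hp : ∀ s, 0 ≤ p s ∧ p s ≤ 1) (w : Finset (Lp T Λ)) (g : Lp T Λ) :
    0 ≤ Up ex ey p w g := by
  unfold Up; split_ifs; exacts [le_rfl, (cpt_qq (pin_mem hp w)).nn _]

lemma U_mono (hp : ∀ s, 0 ≤ p s ∧ p s ≤ 1) (h : ∀ g, g ∉ w → c g ≤ c' g) :
    U ex ey p c w ≤ U ex ey p c' w :=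
  ex_mono (pr_Pw (pin_mem hp w)).nn fun _ => sum_le_sum fun g _ => by
    unfold off; split_ifs with h1; exacts [le_rfl, h g h1]

lemma U_nn (hp : ∀ s, 0 ≤ p s ∧ p s ≤ 1) (h : ∀ g, 0 ≤ c g) : 0 ≤ U ex ey p c w :=
  ex_nn (pr_Pw (pin_mem hp w)).nn fun _ => sum_nonneg fun g _ => off_nn h g

lemma ex_Ph (h : ∀ g ∈ w, c g = 0) : Op.ex (Pw (pin ex ey p w)) (Ph ex ey c) = U ex ey p c w := by
  rw [U]; congr 2; funext g; unfold off; split_ifs with h1; exacts [h g h1, rfl]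

lemma Ph_add (c c' : Lp T Λ → ℝ) (ξ : Fin T → Bool) :
    Ph ex ey (fun g => c g + c' g) ξ = Ph ex ey c ξ + Ph ex ey c' ξ := sum_add_distrib

lemma sqD (hD : ∀ g, 0 ≤ D g ∧ D g ≤ 1) (x : ℝ) (g : Lp T Λ) : (x * D g) ^ 2 ≤ x ^ 2 * D g := by
  nlinarith [mul_nonneg (mul_nonneg (sq_nonneg x) (hD g).1) (sub_nonneg.2 (hD g).2)]

/-- crude bound. -/
lemma Sup.U_sq (h : Sup u D n) (hp : ∀ s, 0 ≤ p s ∧ p s ≤ 1) (hD : ∀ g, 0 ≤ D g ∧ D g ≤ 1) :
    nsq (Pw (pin ex ey p w)) (Ph ex ey (off (· ∈ w) fun g => a g * D g)) ≤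
      n * U ex ey p (fun g => a g ^ 2 * D g) w := by
  rw [U, ← ex_mul]
  refine ex_mono (pr_Pw (pin_mem hp w)).nn fun ξ => (h.sq (fun g hg => .inr fun h0 => hg ?_) ξ).trans
    (mul_le_mul_of_nonneg_left (sum_le_sum fun g _ => ?_) (Nat.cast_nonneg _))
  · simp [off, h0]
  · unfold off; split_ifs; exacts [by simp, sqD hD _ g]

lemma rare_sum {E : Finset (Lp T Λ) → Lp T Λ → Prop} (hc : ∀ g, 0 ≤ c g)
    (h : ∀ g, c g ≠ 0 → Rare ex ey p u g (fun w => E w g) ε) :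
    Op.ex (nu (qq ex ey p) u) (fun w => U ex ey p (fun g => c g * i1 (E w g)) w) ≤
      ε * Op.ex (nu (qq ex ey p) u) (U ex ey p c) := by
  rw [ex_congr fun w hw => U_sum (nu_supp hw).1 _, ex_congr fun w hw => U_sum (nu_supp hw).1 c,
    ex_sum', ex_sum', mul_sum]
  refine sum_le_sum fun g _ => ?_
  simp only [mul_assoc, ex_mul]
  by_cases h0 : c g = 0
  · simp [h0]
  · rw [mul_left_comm]; exact mul_le_mul_of_nonneg_left (h g h0) (hc g)

open Classical in
/-- the good part of the test. -/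
noncomputable def ag (a : Lp T Λ → ℝ) (Gw : Finset (Lp T Λ) → Lp T Λ → Prop)
    (w : Finset (Lp T Λ)) (g : Lp T Λ) : ℝ := if g ∉ w ∧ Gw w g then a g else 0
/-- the bad part of the test. -/
noncomputable def ab (a : Lp T Λ → ℝ) (Gw : Finset (Lp T Λ) → Lp T Λ → Prop)
    (w : Finset (Lp T Λ)) (g : Lp T Λ) : ℝ := a g * i1 (¬ Gw w g)

lemma ag_supp {g : Lp T Λ} (h : ag a Gw w g ≠ 0) : g ∉ w ∧ Gw w g := by
  by_contra h1; exact h (if_neg h1)

lemma ag_zero {g : Lp T Λ} (h : g ∈ w) : ag a Gw w g = 0 := if_neg fun h1 => h1.1 h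

lemma ag_sq (g : Lp T Λ) : ag a Gw w g ^ 2 ≤ a g ^ 2 := by
  unfold ag; split_ifs; exacts [le_rfl, by simpa using sq_nonneg _]

lemma ab_sq (g : Lp T Λ) : ab a Gw w g ^ 2 * D g = a g ^ 2 * D g * i1 (¬ Gw w g) := by
  unfold ab i1; split_ifs <;> simp

lemma split (a D : Lp T Λ → ℝ) (Gw : Finset (Lp T Λ) → Lp T Λ → Prop) (w : Finset (Lp T Λ)) :
    (off (· ∈ w) fun g => a g * D g) =
      fun g => ag a Gw w g * D g + off (· ∈ w) (fun g => ab a Gw w g * D g) g := by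
  funext g
  by_cases h1 : g ∈ w <;> by_cases h2 : Gw w g <;> simp [off, ag, ab, i1, h1, h2]

lemma var_add_le {Ω : Type} [Fintype Ω] [DecidableEq Ω] {μ : Ω → ℝ} (hμ : Pr μ) (f g : Ω → ℝ) {t : ℝ}
    (ht : 0 < t) : var μ (fun ω => f ω + g ω) ≤ (1 + t) * var μ f + (1 + 1 / t) * nsq μ g := by
  refine (hμ.var_le_sub _ (Op.ex μ f)).trans ?_
  rw [var, nsq_eq_ex, nsq_eq_ex, nsq_eq_ex, ← ex_mul, ← ex_mul, ← ex_add]
  refine ex_mono hμ.nn fun ω => ?_
  have := div_nonneg (sq_nonneg (t * (f ω - Op.ex μ f) - g ω)) ht.le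
  have e : (t * (f ω - Op.ex μ f) - g ω) ^ 2 / t = (1 + t) * (f ω - Op.ex μ f) ^ 2 +
    (1 + 1 / t) * g ω ^ 2 - (f ω + g ω - Op.ex μ f) ^ 2 := by field_simp; ring
  linarith

/-- **TKa** with a support bound. -/
theorem tka (H : HA ex ey p u D Sa Gw κ ε) (hS : Sup u D n) {t : ℝ} (ht : 0 < t) :
    TKa ex ey p u D Sa (κa n κ ε t) := fun a ha => by
  have hν := pr_nu (cpt_qq (ex := ex) (ey := ey) H.hp) fun g => (H.hu g).1
  have n0 := fun g => mul_nonneg (sq_nonneg (a g)) (H.hD g).1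
  have r := rare_sum n0 fun g hg => H.rare g (ha g fun h => hg (by simp [h]))
  have key : ∀ w, nu (qq ex ey p) u w ≠ 0 →
      var (Pw (pin ex ey p w)) (Ph ex ey (off (· ∈ w) fun g => a g * D g)) ≤
      U ex ey p (fun g => (a g * D g) ^ 2) w +
        (κ + t * (1 + κ)) * U ex ey p (fun g => a g ^ 2 * D g) w +
        (1 + 1 / t) * n * U ex ey p (fun g => a g ^ 2 * D g * i1 (¬ Gw w g)) w := fun w hw => by
    have hP := pr_Pw (pin_mem (ex := ex) (ey := ey) H.hp w)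
    have h1 := H.crs w hw (ag a Gw w) (fun g => ag a Gw w g * D g) (fun g => ag_supp)
      fun g hg => ag_supp (left_ne_zero_of_mul hg)
    simp only [← sq] at h1
    rw [← nsq_eq_ex, ← hP.var_eq, ex_Ph (c := fun g => (ag a Gw w g * D g) ^ 2)
      fun g hg => by simp [ag_zero hg], ex_Ph (c := fun g => ag a Gw w g ^ 2 * D g)
      fun g hg => by simp [ag_zero hg]] at h1
    have a1 : U ex ey p (fun g => (ag a Gw w g * D g) ^ 2) w ≤
        U ex ey p (fun g => (a g * D g) ^ 2) w := U_mono H.hp fun g _ => by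
      rw [mul_pow, mul_pow]; exact mul_le_mul_of_nonneg_right (ag_sq g) (sq_nonneg _)
    have a2 : U ex ey p (fun g => ag a Gw w g ^ 2 * D g) w ≤ U ex ey p (fun g => a g ^ 2 * D g) w :=
      U_mono H.hp fun g _ => mul_le_mul_of_nonneg_right (ag_sq g) (H.hD g).1
    have a3 : U ex ey p (fun g => (a g * D g) ^ 2) w ≤ U ex ey p (fun g => a g ^ 2 * D g) w :=
      U_mono H.hp fun g _ => sqD H.hD _ g
    have a4 := U_nn (ex := ex) (ey := ey) (w := w) H.hp n0
    have a5 := (abs_le_of_sq_le_sq' (h1.trans ((mul_le_mul (mul_le_mul_of_nonneg_left a2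
      (sq_nonneg κ)) (a1.trans a3) (U_nn H.hp fun _ => sq_nonneg _) (by positivity)).trans_eq
      (by rw [mul_assoc, ← sq, ← mul_pow]))) (mul_nonneg H.κ0 a4)).2
    have a6 := hS.U_sq (ex := ex) (ey := ey) (w := w) (a := ab a Gw w) H.hp H.hD
    simp only [ab_sq] at a6
    rw [split a D Gw w, funext (Ph_add _ _)]
    refine (var_add_le hP _ _ ht).trans ?_
    have a7 := mul_le_mul_of_nonneg_left a6 (by positivity : 0 ≤ 1 + 1 / t)
    nlinarith [mul_le_mul_of_nonneg_left (a1.trans a3) ht.le, mul_le_mul_of_nonneg_left a5 ht.le]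
  refine (ex_mono_ae hν.nn key).trans ?_
  rw [ex_add, ex_add, ex_mul, ex_mul, κa]
  nlinarith [mul_le_mul_of_nonneg_left r (by positivity : 0 ≤ (1 + 1 / t) * n)]

/-! ### births and deaths -/

lemma gnz_nu (hp : ∀ s, 0 ≤ p s ∧ p s ≤ 1) (f : Finset (Lp T Λ) → Lp T Λ → ℝ) :
    Op.ex (nu (qq ex ey p) u) (fun w => ∑ g ∈ w, f (w.erase g) g) =
      Op.ex (nu (qq ex ey p) u) fun w => ∑ g, u g * Up ex ey p w g * f w g := by
  rw [Op.ex, gnz]
  refine sum_congr rfl fun w _ => ?_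
  rw [mul_sum, ← sum_add_sum_compl w, sum_eq_zero (s := w) fun g hg => by simp [Up, hg], zero_add]
  refine sum_congr rfl fun g hg => ?_
  by_cases h : qq ex ey p w = 0
  · have : qq ex ey p (insert g w) = 0 := by
      by_contra h'; exact (cpt_qq hp).ne_of_sub (subset_insert g w) h' h
    simp [Gas.nu, gw, h, this]
  · rw [Gas.nu, Gas.nu, gw_insert (mem_compl.1 hg) h, Up, if_neg (mem_compl.1 hg), sh_qq h]; ring

/-- the response to a birth is a covariance. -/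
lemma resp (hp : ∀ s, 0 ≤ p s ∧ p s ≤ 1) (hw : qq ex ey p w ≠ 0) (al : Lp T Λ → ℝ)
    (hc : ∀ g ∈ w, c g = 0) :
    ∑ g, c g * (Up ex ey p w g * U ex ey p al (insert g w)) =
      Op.ex (Pw (pin ex ey p w)) (fun ξ => Ph ex ey (off (· ∈ w) al) ξ * Ph ex ey c ξ) -
        U ex ey p (fun g => al g * c g) w := by
  have hq := cpt_qq (ex := ex) (ey := ey) hp
  have e := sh_qq hw
  have e1 : ∀ ξ, Ph ex ey (off (· ∈ w) al) ξ * Ph ex ey c ξ = ∑ g, c g * ∑ g', al g' *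
      ((if g ∈ w then 0 else if g ∈ L ex ey ξ then 1 else 0) *
        if g' ∈ w then 0 else if g' ∈ L ex ey ξ then 1 else 0) := fun ξ => by
    have : c = off (· ∈ w) c := by funext g; unfold off; split_ifs with h; exacts [hc g h, rfl]
    rw [Ph, Ph, Pc.sum_off_eq]
    conv_lhs => rw [this, Pc.sum_off_eq]
    rw [mul_comm, sum_mul_sum]
    exact sum_congr rfl fun g _ => by rw [mul_sum]; exact sum_congr rfl fun g' _ => by ring
  simp only [e1]
  rw [ex_sum', U_sum hw, ← sum_sub_distrib]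
  refine sum_congr rfl fun g _ => ?_
  rw [ex_mul, ex_sum']
  simp only [ex_mul, ← Pc.up2_eq' e]
  rw [mul_comm (al g), mul_assoc, ← mul_sub, ← up_qq hw]
  congr 1
  by_cases hg : g ∈ w
  · simp [up, Pc.up2, hg]
  by_cases h0 : qq ex ey p (insert g w) = 0
  · have z : ∀ g', qq ex ey p (w ∪ {g, g'}) = 0 := fun g' => by
      by_contra h'
      exact hq.ne_of_sub (insert_subset (by simp) subset_union_left) h' h0
    have z1 : qq ex ey p (w ∪ {g}) = 0 := by simpa using z g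
    simp only [up, Pc.up2, sh, z, z1, zero_div, ite_self, zero_mul, mul_zero, sum_const_zero,
      sub_zero]
  rw [U_eq h0, Phb, mul_sum, ← add_sum_erase _ _ (mem_univ g), ← add_sum_erase _ _ (mem_univ g)]
  have e2 : Pc.up2 (qq ex ey p) w g g = up (qq ex ey p) w g := by simp [up, Pc.up2]
  rw [e2, show up (qq ex ey p) (insert g w) g = 0 from if_pos (mem_insert_self _ _), mul_zero,
    mul_zero, zero_add, add_sub_cancel_left]
  refine sum_congr rfl fun g' hg' => ?_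
  by_cases h1 : g' ∈ w
  · simp [up, Pc.up2, h1]
  have e3 : insert g w ∪ {g'} = w ∪ {g, g'} := by ext; simp
  have e4 : w ∪ {g} = insert g w := by rw [union_comm, insert_eq]
  simp only [up, Pc.up2, hg, h1, mem_insert, ne_of_mem_erase hg', or_self, if_false, sh, e3, e4]
  field_simp

lemma cov_sq {Ω : Type} [Fintype Ω] [DecidableEq Ω] {μ : Ω → ℝ} (hμ : Pr μ) (f g : Ω → ℝ) :
    (Op.ex μ (fun ω => f ω * g ω) - Op.ex μ f * Op.ex μ g) ^ 2 ≤ nsq μ f * nsq μ g := by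
  have h := cs hμ.nn f fun ω => g ω - Op.ex μ g
  rw [ip_sub_right, ip_const, mul_comm (Op.ex μ g)] at h
  exact h.trans (mul_le_mul_of_nonneg_left (hμ.var_le g) (nsq_nn hμ.nn f))

/-- the good births. -/
lemma good (H : HA ex ey p u D Sa Gw κ ε) (hS : Sup u D n) (hw : nu (qq ex ey p) u w ≠ 0) :
    ∑ g, u g * Up ex ey p w g * (i1 (Gw w g) * (U ex ey p (fun g => a g * D g) (insert g w) -
      U ex ey p (fun g => a g * D g) w) ^ 2) ≤ 2 * κ ^ 2 * U ex ey p (fun g => a g ^ 2 * D g) w +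
      2 * (n + 1) ^ 2 * U ex ey p (fun g => a g ^ 2 * D g * i1 (¬ Gw w g)) w := by
  have hP := pr_Pw (pin_mem (ex := ex) (ey := ey) H.hp w)
  have hq := (nu_supp hw).1
  set F := U ex ey p fun g => a g * D g with hF
  set c := ag (fun g => u g * (F (insert g w) - F w)) Gw w with hc
  set X := ∑ g, u g * Up ex ey p w g * (i1 (Gw w g) * (F (insert g w) - F w) ^ 2) with hX
  set N := U ex ey p (fun g => a g ^ 2 * D g) w
  set Nb := U ex ey p (fun g => a g ^ 2 * D g * i1 (¬ Gw w g)) w with hNb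
  have c0 : ∀ g ∈ w, c g = 0 := fun g => ag_zero
  have N0 : 0 ≤ N := U_nn H.hp fun g => mul_nonneg (sq_nonneg _) (H.hD g).1
  have Nb0 : 0 ≤ Nb := U_nn H.hp fun g => mul_nonneg (mul_nonneg (sq_nonneg _) (H.hD g).1) (i1_nn _)
  have X0 : 0 ≤ X := sum_nonneg fun g _ => mul_nonneg (mul_nonneg (H.hu g).1 (Up_nn H.hp w g))
    (mul_nonneg (i1_nn _) (sq_nonneg _))
  have cX : U ex ey p (fun g => c g ^ 2) w ≤ X := by
    rw [U_sum hq]
    refine sum_le_sum fun g _ => ?_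
    by_cases h1 : g ∈ w
    · simp [Up, h1]
    by_cases h2 : Gw w g
    · simp only [hc, ag, h1, h2, not_false_eq_true, and_self, if_true, i1_pos]
      nlinarith [mul_nonneg (mul_nonneg (mul_nonneg (H.hu g).1 (sub_nonneg.2 (H.hu g).2))
        (Up_nn (ex := ex) (ey := ey) H.hp w g)) (sq_nonneg (F (insert g w) - F w))]
    · simp [hc, ag, h2, i1_neg]
  have eX : X = ∑ g, c g * (Up ex ey p w g * F (insert g w)) - F w * U ex ey p c w := by
    rw [U_sum hq, mul_sum, ← sum_sub_distrib]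
    refine sum_congr rfl fun g _ => ?_
    by_cases h1 : g ∈ w
    · simp [Up, h1]
    by_cases h2 : Gw w g
    · simp only [hc, ag, h1, h2, not_false_eq_true, and_self, if_true, i1_pos]; ring
    · simp [hc, ag, h2, i1_neg]
  have h1 := H.crs w hw (ag a Gw w) c (fun g => ag_supp) fun g => ag_supp
  set b := off (· ∈ w) fun g => ab a Gw w g * D g with hb
  have h2 := cov_sq hP (Ph ex ey b) (Ph ex ey c)
  have a6 := hS.U_sq (ex := ex) (ey := ey) (w := w) (a := ab a Gw w) H.hp H.hD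
  simp only [ab_sq] at a6
  have a7 : nsq (Pw (pin ex ey p w)) (Ph ex ey c) ≤ n * X := by
    refine le_trans ?_ (mul_le_mul_of_nonneg_left cX (Nat.cast_nonneg _))
    rw [← ex_Ph (c := fun g => c g ^ 2) fun g hg => by simp [c0 g hg], ← ex_mul]
    refine ex_mono hP.nn fun ξ => hS.sq (fun g hg => .inl fun h => hg ?_) ξ
    simp [hc, ag, h]
  have h3 : U ex ey p (fun g => b g * c g) w ^ 2 ≤ Nb * X := by
    have := cs (μ := Up ex ey p w) (Up_nn H.hp w) b c
    simp only [ip, nsq, mul_comm (Up ex ey p w _), ← U_sum hq] at this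
    refine this.trans (mul_le_mul (U_mono H.hp fun g hg => ?_) cX
      (U_nn H.hp fun _ => sq_nonneg _) Nb0)
    rw [hb, off, if_neg hg, ← ab_sq]; exact sqD H.hD _ g
  rw [ex_Ph (c := fun g => ag a Gw w g ^ 2 * D g) fun g hg => by simp [ag_zero hg],
    ex_Ph (c := fun g => c g ^ 2) fun g hg => by simp [c0 g hg],
    ex_Ph (c := fun g => ag a Gw w g * D g * c g) fun g hg => by simp [c0 g hg]] at h1
  replace h1 := h1.trans (mul_le_mul (mul_le_mul_of_nonneg_left (U_mono H.hp (c' := fun g =>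
    a g ^ 2 * D g) fun g _ => mul_le_mul_of_nonneg_right (ag_sq g) (H.hD g).1) (sq_nonneg κ)) cX
    (U_nn H.hp fun _ => sq_nonneg _) (by positivity))
  replace h2 := h2.trans (mul_le_mul a6 a7 (nsq_nn hP.nn _) (by positivity))
  have e1 : U ex ey p (fun g => a g * D g * c g) w = U ex ey p (fun g => ag a Gw w g * D g * c g) w +
      U ex ey p (fun g => b g * c g) w := by
    simp only [U_sum hq, ← sum_add_distrib]
    refine sum_congr rfl fun g _ => ?_
    by_cases hg : g ∈ w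
    · simp [c0 g hg]
    · have := congrFun (split a D Gw w) g
      rw [off, if_neg hg] at this
      rw [this]; ring
  have e2 : F w = Op.ex (Pw (pin ex ey p w)) (Ph ex ey fun g => ag a Gw w g * D g) +
      Op.ex (Pw (pin ex ey p w)) (Ph ex ey b) := by
    rw [hF, U, split a D Gw w, funext (Ph_add _ _), ex_add]
  rw [e2, hF, resp H.hp hq _ c0, e1, ← ex_Ph c0, split a D Gw w, funext (Ph_add _ _)] at eX
  simp only [add_mul, ex_add] at eX
  have r1 := Real.sq_sqrt (mul_nonneg Nb0 X0)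
  have r0 := Real.sqrt_nonneg (Nb * X)
  have b2 := abs_le_of_sq_le_sq' (b := n * Real.sqrt (Nb * X)) (h2.trans_eq (by rw [mul_pow, r1]; ring))
    (by positivity)
  have b3 := abs_le_of_sq_le_sq' (h3.trans_eq r1.symm) r0
  rw [← hb] at eX
  generalize (Op.ex (Pw (pin ex ey p w)) fun ξ => Ph ex ey b ξ * Ph ex ey c ξ) = x1 at *
  generalize Op.ex (Pw (pin ex ey p w)) (Ph ex ey b) = x2 at *
  generalize Op.ex (Pw (pin ex ey p w)) (Ph ex ey c) = x3 at *
  generalize U ex ey p (fun g => b g * c g) w = x4 at *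
  have b4 : (x1 - x2 * x3 - x4) ^ 2 ≤ (n + 1) ^ 2 * (Nb * X) := by
    rw [← r1, ← mul_pow]
    exact sq_le_sq' (by linarith [b2.1, b3.2]) (by linarith [b2.2, b3.1])
  rcases X0.eq_or_lt with h | h
  · rw [← h]; positivity
  refine le_of_mul_le_mul_right ?_ h
  generalize (Op.ex (Pw (pin ex ey p w)) fun ξ =>
    Ph ex ey (fun g => ag a Gw w g * D g) ξ * Ph ex ey c ξ) = y1 at *
  generalize Op.ex (Pw (pin ex ey p w)) (Ph ex ey fun g => ag a Gw w g * D g) = y2 at *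
  generalize U ex ey p (fun g => ag a Gw w g * D g * c g) w = y4 at *
  have e5 : X = (y1 - y2 * x3 - y4) + (x1 - x2 * x3 - x4) := by rw [eX]; ring
  nlinarith [sq_nonneg ((y1 - y2 * x3 - y4) - (x1 - x2 * x3 - x4))]

lemma Sup.F_sq (h : Sup u D n) (hp : ∀ s, 0 ≤ p s ∧ p s ≤ 1) (hD : ∀ g, 0 ≤ D g ∧ D g ≤ 1) :
    U ex ey p (fun g => a g * D g) w ^ 2 ≤ n * U ex ey p (fun g => a g ^ 2 * D g) w :=
  ((pr_Pw (pin_mem hp w)).sq_ex_le _).trans (h.U_sq hp hD)

lemma U_i1 (c : Lp T Λ → ℝ) (P : Prop) :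
    U ex ey p (fun g => c g * i1 P) w = i1 P * U ex ey p c w := by
  by_cases h : P
  · simp [i1_pos h]
  · simp [i1_neg h, U, Ph, off, Op.ex]

/-- mean square on the bad set. -/
lemma bad_sq (H : HA ex ey p u D Sa Gw κ ε) (hS : Sup u D n) (ha : ∀ g, a g ≠ 0 → Sa g)
    (hb : ∀ g, Sa g → Rare ex ey p u g Bad ε) :
    Op.ex (nu (qq ex ey p) u) (fun w => i1 (Bad w) * U ex ey p (fun g => a g * D g) w ^ 2) ≤
      n * ε * Op.ex (nu (qq ex ey p) u) (U ex ey p fun g => a g ^ 2 * D g) := by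
  have r := rare_sum (E := fun w _ => Bad w) (fun g => mul_nonneg (sq_nonneg (a g)) (H.hD g).1)
    fun g hg => hb g (ha g fun h => hg (by simp [h]))
  rw [mul_assoc]
  refine le_trans ?_ (mul_le_mul_of_nonneg_left r (Nat.cast_nonneg _))
  rw [← ex_mul]
  refine ex_mono (nu_nn (cpt_qq H.hp) fun g => (H.hu g).1) fun w => ?_
  rw [U_i1, mul_left_comm]
  exact mul_le_mul_of_nonneg_left (hS.F_sq H.hp H.hD) (i1_nn _)

/-- **the birth-death form of the response.** -/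
theorem dir_le (H : HA ex ey p u D Sa Gw κ ε) (hS : Sup u D n) (ha : ∀ g, a g ≠ 0 → Sa g)
    (hb : ∀ g, Sa g → Rare ex ey p u g Bad ε)
    (death : ∀ w, nu (qq ex ey p) u w ≠ 0 → ¬ Bad w → ∀ g ∈ w, Gw (w.erase g) g)
    (birth : ∀ w, nu (qq ex ey p) u w ≠ 0 → ¬ Bad w →
      ∑ g, u g * Up ex ey p w g * i1 (¬ Gw w g) ≤ ε) :
    Dir (nu (qq ex ey p) u) (U ex ey p fun g => a g * D g) ≤ (2 * κ ^ 2 + 6 * (n + 1) ^ 2 * ε) *
      Op.ex (nu (qq ex ey p) u) (U ex ey p fun g => a g ^ 2 * D g) := by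
  classical
  have hν := pr_nu (cpt_qq (ex := ex) (ey := ey) H.hp) fun g => (H.hu g).1
  have n0 := fun g => mul_nonneg (sq_nonneg (a g)) (H.hD g).1
  have r := rare_sum n0 fun g hg => H.rare g (ha g fun h => hg (by simp [h]))
  have r2 := bad_sq H hS ha hb
  set F := U ex ey p fun g => a g * D g with hF
  have N0 := ex_nn hν.nn fun w => U_nn (ex := ex) (ey := ey) (w := w) H.hp n0
  have h1 : Op.ex (nu (qq ex ey p) u) (fun w => ∑ g ∈ w, i1 (Gw (w.erase g) g) *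
      (F (insert g (w.erase g)) - F (w.erase g)) ^ 2) ≤ _ :=
    (gnz_nu H.hp fun w g => i1 (Gw w g) * (F (insert g w) - F w) ^ 2).trans_le
      (ex_mono_ae hν.nn fun w hw => good H hS hw)
  have h2 : Op.ex (nu (qq ex ey p) u) (fun w => ∑ g ∈ w, i1 (¬ Gw (w.erase g) g) *
      F (w.erase g) ^ 2) ≤ Op.ex (nu (qq ex ey p) u) fun w =>
      ε * (n * U ex ey p (fun g => a g ^ 2 * D g) w) + n * (i1 (Bad w) * F w ^ 2) := by
    refine (gnz_nu H.hp fun w g => i1 (¬ Gw w g) * F w ^ 2).trans_le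
      (ex_mono_ae hν.nn fun w hw => ?_)
    simp only [← mul_assoc, ← sum_mul]
    have f1 := hS.F_sq (ex := ex) (ey := ey) (a := a) (w := w) H.hp H.hD
    have f2 := mul_nonneg H.ε0 ((sq_nonneg _).trans f1)
    by_cases hB : Bad w
    · have : ∑ g, u g * Up ex ey p w g * i1 (¬ Gw w g) ≤ n := by
        have e : ∑ g, u g * Up ex ey p w g * i1 (¬ Gw w g) =
          U ex ey p (fun g => u g * i1 (¬ Gw w g)) w := by
          rw [U_sum (nu_supp hw).1]; exact sum_congr rfl fun g _ => by ring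
        rw [e, ← (pr_Pw (pin_mem (ex := ex) (ey := ey) H.hp w)).ex_const n]
        refine ex_mono (pr_Pw (pin_mem H.hp w)).nn fun ξ => ?_
        rw [Ph, ← sum_filter_ne_zero]
        refine (sum_le_card_nsmul _ _ 1 fun g _ => ?_).trans ?_
        · unfold off; split_ifs
          exacts [zero_le_one, mul_le_one₀ (H.hu g).2 (i1_nn _) (i1_le _)]
        · rw [nsmul_one]
          refine Nat.cast_le.2 (hS.card ξ (filter_subset _ _) fun g hg => .inl fun h => ?_)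
          exact (mem_filter.1 hg).2 (by simp [off, h])
      rw [i1_pos hB]
      nlinarith [mul_le_mul_of_nonneg_right this (sq_nonneg (F w))]
    · rw [i1_neg hB]
      nlinarith [mul_le_mul_of_nonneg_right (birth w hw hB) (sq_nonneg (F w)),
        mul_le_mul_of_nonneg_left f1 H.ε0]
  have h3 : Dir (nu (qq ex ey p) u) F ≤ Op.ex (nu (qq ex ey p) u) fun w =>
      (∑ g ∈ w, i1 (Gw (w.erase g) g) * (F (insert g (w.erase g)) - F (w.erase g)) ^ 2) +
      (2 * ∑ g ∈ w, i1 (¬ Gw (w.erase g) g) * F (w.erase g) ^ 2) +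
      2 * n * (i1 (Bad w) * F w ^ 2) := by
    refine ex_mono_ae hν.nn fun w hw => ?_
    have k : ∑ g ∈ w, i1 (¬ Gw (w.erase g) g) * F w ^ 2 ≤ n * (i1 (Bad w) * F w ^ 2) := by
      by_cases hB : Bad w
      · obtain ⟨ξ, -, hξ⟩ := qq_supp (nu_supp hw).1
        refine (sum_le_card_nsmul _ _ (F w ^ 2) fun g _ =>
          mul_le_of_le_one_left (sq_nonneg _) (i1_le _)).trans ?_
        rw [i1_pos hB, one_mul, nsmul_eq_mul]
        refine mul_le_mul_of_nonneg_right ?_ (sq_nonneg _)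
        exact_mod_cast hS.card ξ hξ fun g hg => .inl ((nu_supp hw).2 g hg)
      · rw [i1_neg hB, sum_eq_zero fun g hg => by
          rw [i1_neg (not_not.2 (death w hw hB g hg)), zero_mul]]
        simp
    refine le_trans ?_ (add_le_add le_rfl (by linarith : 2 * ∑ g ∈ w, i1 (¬ Gw (w.erase g) g) *
      F w ^ 2 ≤ _))
    rw [mul_sum, mul_sum, ← sum_add_distrib, ← sum_add_distrib]
    refine sum_le_sum fun g hg => ?_
    rw [insert_erase hg]
    by_cases h : Gw (w.erase g) g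
    · simp [i1_pos h, i1_neg (not_not.2 h)]
    · rw [i1_neg h, i1_pos h]; nlinarith [sq_nonneg (F w + F (w.erase g))]
  simp only [ex_add, ex_mul] at h1 h2 h3
  have n1 : (0 : ℝ) ≤ n := Nat.cast_nonneg _
  nlinarith [mul_le_mul_of_nonneg_left r2 n1, mul_le_mul_of_nonneg_left r (sq_nonneg (n + 1 : ℝ)),
    mul_nonneg H.ε0 N0, mul_nonneg n1 (mul_nonneg H.ε0 N0)]

/-- **TKb** with a support bound. -/
theorem tkb {ws : Fin T → Fin T} {near : Λ → Λ → Prop} {Z : Λ → Finset Λ}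
    {q δ C0 nk Nr : ℝ} {Bn N n1 n2 k0 Km : ℕ} (H : HA ex ey p u D Sa Gw κ ε)
    (K : HB ex ey p u D Sa Gw Bad ws near Z ε q δ C0 nk Nr Bn N n1 n2 k0 Km)
    (hS : Sup u D n) : TKb ex ey p u D Sa (κb n κ ε q δ C0 nk Nr Bn N n1 n2 k0 Km) :=
  fun a ha => by
  obtain ⟨I, _, m, x, v, m0, hm, dom, hv⟩ := K.lp
  have hν := pr_nu (cpt_qq (ex := ex) (ey := ey) H.hp) fun g => (H.hu g).1
  have r2 := bad_sq H hS ha K.bad
  have r3 := dir_le H hS ha K.bad K.death K.birth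
  have fib := blk_fib H K m0 hm dom ha
  have res : Op.ex (nu (qq ex ey p) u) (fun w => Nr * (ε + i1 (Bad w)) *
      U ex ey p (fun g => a g * D g) w ^ 2) ≤
      2 * Nr * n * ε * Op.ex (nu (qq ex ey p) u) (U ex ey p fun g => a g ^ 2 * D g) := by
    have h1 : Op.ex (nu (qq ex ey p) u) (fun w => U ex ey p (fun g => a g * D g) w ^ 2) ≤
        n * Op.ex (nu (qq ex ey p) u) (U ex ey p fun g => a g ^ 2 * D g) := by
      rw [← ex_mul]; exact ex_mono hν.nn fun w => hS.F_sq H.hp H.hD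
    simp only [mul_assoc, add_mul, ex_mul, ex_add]
    nlinarith [mul_le_mul_of_nonneg_left (add_le_add (mul_le_mul_of_nonneg_left h1 H.ε0) r2) K.Nr0]
  refine (hv _).trans ?_
  rw [κb]
  nlinarith [mul_le_mul_of_nonneg_left (add_le_add r3 fib) K.hC0]

end Crest.Agent.N337.TS

namespace Crest.Agent.N337.M

theorem tkaS : TkaS := fun _ _ _ _ _ _ _ _ _ _ _ _ _ _ _ S _ H ht h1 h2 => TS.tka H ⟨S, h2, h1⟩ ht

theorem tkbS : TkbS :=
  fun _ _ _ _ _ _ _ _ _ _ _ _ _ _ _ _ _ _ _ _ _ _ _ _ _ _ _ _ _ S _ H K h1 h2 =>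
    TS.tkb H K ⟨S, h2, h1⟩

end Crest.Agent.N337.M
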