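import Crest.Agent.N337.TK.Defs

/-!
# Row 337, TK: basic lemmas and TKa
-/

set_option autoImplicit false
set_option linter.unusedSectionVars false

namespace Crest.Agent.N337.TK

open Finset Crest.Agent.N337.Rep Crest.Agent.N337.LY0 Crest.Agent.N337.Op Crest.Agent.N337.Gas

lemma i1_pos {P : Prop} (h : P) : i1 P = 1 := if_pos h
lemma i1_neg {P : Prop} (h : ¬ P) : i1 P = 0 := if_neg h
lemma i1_nn (P : Prop) : 0 ≤ i1 P := by unfold i1; split_ifs <;> norm_num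
lemma i1_le (P : Prop) : i1 P ≤ 1 := by unfold i1; split_ifs <;> norm_num
lemma i1_not (P : Prop) : i1 (¬ P) = 1 - i1 P := by by_cases h : P <;> simp [i1, h]
lemma i1_sq (P : Prop) : i1 P ^ 2 = i1 P := by unfold i1; split_ifs <;> norm_num
lemma i1_congr {P Q : Prop} (h : P ↔ Q) : i1 P = i1 Q := by rw [propext h]

variable {Λ : Type} [Fintype Λ] [DecidableEq Λ] {T : ℕ} [NeZero T] {ex ey : Fin T → Λ}
  {p : Fin T → ℝ} {u D a b c : Lp T Λ → ℝ} {w x A : Finset (Lp T Λ)} {g : Lp T Λ}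

lemma pr_Pw (hp : ∀ s, 0 ≤ p s ∧ p s ≤ 1) : Op.Pr (Pw p) := ⟨Pw_nonneg hp, sum_Pw p⟩

lemma card_L (ξ : Fin T → Bool) : (L ex ey ξ).card ≤ Fintype.card Λ := by
  rw [L_eq_image]; exact card_image_le.trans (card_orb_le ex ey ξ)

lemma Ph_add (a b : Lp T Λ → ℝ) (ξ : Fin T → Bool) :
    Ph ex ey (fun g => a g + b g) ξ = Ph ex ey a ξ + Ph ex ey b ξ := sum_add_distrib

lemma Ph_mono (h : ∀ g, a g ≤ b g) (ξ : Fin T → Bool) : Ph ex ey a ξ ≤ Ph ex ey b ξ :=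
  sum_le_sum fun g _ => h g

lemma Ph_nn (h : ∀ g, 0 ≤ a g) (ξ : Fin T → Bool) : 0 ≤ Ph ex ey a ξ := sum_nonneg fun g _ => h g

lemma Ph_sq_le (c : Lp T Λ → ℝ) (ξ : Fin T → Bool) :
    Ph ex ey c ξ ^ 2 ≤ Fintype.card Λ * Ph ex ey (fun g => c g ^ 2) ξ :=
  sq_sum_le_card_mul_sum_sq.trans (mul_le_mul_of_nonneg_right (Nat.cast_le.2 (card_L ξ))
    (Ph_nn (fun _ => sq_nonneg _) ξ))

lemma ex_Ph (p : Fin T → ℝ) (c : Lp T Λ → ℝ) :
    Op.ex (Pw p) (Ph ex ey c) = ∑ g, c g * qq ex ey p {g} := by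
  simp only [Op.ex, Ph, qq, mul_sum, singleton_subset_iff]
  rw [sum_comm]
  refine sum_congr rfl fun ξ _ => ?_
  rw [← sum_filter_add_sum_filter_not univ (· ∈ L ex ey ξ), filter_mem_eq_inter, univ_inter,
    sum_eq_zero (s := univ.filter _) fun g hg => by simp [(mem_filter.1 hg).2], add_zero]
  exact sum_congr rfl fun g hg => by rw [if_pos hg]; ring

lemma U_eq (p : Fin T → ℝ) (c : Lp T Λ → ℝ) (w : Finset (Lp T Λ)) :
    U ex ey p c w = ∑ g, c g * Up ex ey p w g := by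
  rw [U, ex_Ph]
  exact sum_congr rfl fun g _ => by unfold off Up; split_ifs <;> simp

lemma Up_nn (hp : ∀ s, 0 ≤ p s ∧ p s ≤ 1) (w : Finset (Lp T Λ)) (g : Lp T Λ) :
    0 ≤ Up ex ey p w g := by
  unfold Up; split_ifs; exacts [le_rfl, (cpt_qq (pin_mem hp w)).nn _]

lemma U_mono (hp : ∀ s, 0 ≤ p s ∧ p s ≤ 1) (h : ∀ g, a g ≤ b g) (w : Finset (Lp T Λ)) :
    U ex ey p a w ≤ U ex ey p b w := by
  rw [U_eq, U_eq]; exact sum_le_sum fun g _ => mul_le_mul_of_nonneg_right (h g) (Up_nn hp w g)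

lemma U_nn (hp : ∀ s, 0 ≤ p s ∧ p s ≤ 1) (h : ∀ g, 0 ≤ a g) (w : Finset (Lp T Λ)) :
    0 ≤ U ex ey p a w := by
  rw [U_eq]; exact sum_nonneg fun g _ => mul_nonneg (h g) (Up_nn hp w g)

lemma U_mul (k : ℝ) (c : Lp T Λ → ℝ) (w : Finset (Lp T Λ)) :
    U ex ey p (fun g => k * c g) w = k * U ex ey p c w := by
  simp only [U_eq, mul_sum, mul_assoc]

lemma U_sum {κ : Type} (s : Finset κ) (c : κ → Lp T Λ → ℝ) (w : Finset (Lp T Λ)) :
    U ex ey p (fun g => ∑ k ∈ s, c k g) w = ∑ k ∈ s, U ex ey p (c k) w := by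
  simp only [U_eq, sum_mul]; exact sum_comm

lemma off_sq (w : Finset (Lp T Λ)) (c : Lp T Λ → ℝ) :
    (fun g => off (· ∈ w) c g ^ 2) = off (· ∈ w) fun g => c g ^ 2 := by
  funext g; unfold off; split_ifs <;> simp

lemma nsq_Ph_le (hp : ∀ s, 0 ≤ p s ∧ p s ≤ 1) (c : Lp T Λ → ℝ) :
    nsq (Pw p) (Ph ex ey c) ≤ Fintype.card Λ * Op.ex (Pw p) (Ph ex ey fun g => c g ^ 2) := by
  rw [← ex_mul]; exact ex_mono (Pw_nonneg hp) (Ph_sq_le c)

lemma U_sq_le (hp : ∀ s, 0 ≤ p s ∧ p s ≤ 1) (c : Lp T Λ → ℝ) (w : Finset (Lp T Λ)) :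
    U ex ey p c w ^ 2 ≤ Fintype.card Λ * U ex ey p (fun g => c g ^ 2) w := by
  rw [U, U, ← off_sq]
  exact ((pr_Pw (pin_mem hp w)).sq_ex_le _).trans (nsq_Ph_le (pin_mem hp w) _)

lemma U_one_le (hp : ∀ s, 0 ≤ p s ∧ p s ≤ 1) (w : Finset (Lp T Λ)) :
    ∑ g, Up ex ey p w g ≤ Fintype.card Λ := by
  have := U_eq (ex := ex) (ey := ey) p (fun _ => 1) w
  simp only [one_mul] at this
  rw [← this, U, ← (pr_Pw (pin_mem hp w)).ex_const (Fintype.card Λ : ℝ)]
  refine ex_mono (Pw_nonneg (pin_mem hp w)) fun ξ => ?_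
  refine (Ph_mono (b := fun _ => 1) (fun g => by unfold off; split_ifs <;> norm_num) ξ).trans ?_
  simpa [Ph] using card_L ξ

/-- test-side rarity. -/
lemma rare_sum {E : Lp T Λ → Finset (Lp T Λ) → Prop} {ε : ℝ} (h0 : ∀ g, 0 ≤ c g)
    (h : ∀ g, c g ≠ 0 → Rare ex ey p u g (E g) ε) :
    Op.ex (nu (qq ex ey p) u) (fun w => U ex ey p (fun g => c g * i1 (E g w)) w) ≤
      ε * Op.ex (nu (qq ex ey p) u) (U ex ey p c) := by
  have e : ∀ F : Lp T Λ → Finset (Lp T Λ) → ℝ, Op.ex (nu (qq ex ey p) u)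
      (fun w => ∑ g, c g * F g w) = ∑ g, c g * Op.ex (nu (qq ex ey p) u) (F g) := fun F => by
    simp only [Op.ex, mul_sum]
    rw [sum_comm]; exact sum_congr rfl fun _ _ => sum_congr rfl fun _ _ => by ring
  have e2 := funext (U_eq (ex := ex) (ey := ey) p c)
  simp only [U_eq, mul_assoc]
  rw [e2, e, e, mul_sum]
  refine sum_le_sum fun g _ => ?_
  by_cases z : c g = 0
  · simp [z]
  · rw [mul_left_comm]; exact mul_le_mul_of_nonneg_left (h g z) (h0 g)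

lemma rare_sq (hp : ∀ s, 0 ≤ p s ∧ p s ≤ 1) (hu : ∀ g, 0 ≤ u g) {E : Finset (Lp T Λ) → Prop}
    {ε : ℝ} (h : ∀ g, c g ≠ 0 → Rare ex ey p u g E ε) :
    Op.ex (nu (qq ex ey p) u) (fun w => i1 (E w) * U ex ey p c w ^ 2) ≤
      Fintype.card Λ * (ε * Op.ex (nu (qq ex ey p) u) (U ex ey p fun g => c g ^ 2)) := by
  have k := rare_sum (c := fun g => c g ^ 2) (E := fun _ => E) (fun _ => sq_nonneg _)
    fun g hg => h g fun z => hg (by simp [z])
  refine le_trans ?_ (mul_le_mul_of_nonneg_left k (Nat.cast_nonneg _))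
  rw [← ex_mul]
  refine ex_mono (nu_nn (cpt_qq hp) hu) fun w => ?_
  simp only [mul_comm (c _ ^ 2), U_mul]
  rw [mul_left_comm]
  exact mul_le_mul_of_nonneg_left (U_sq_le hp c w) (i1_nn _)

lemma pin_pin (h : qq ex ey p (x ∪ A) ≠ 0) :
    pin ex ey (pin ex ey p x) A = pin ex ey p (x ∪ A) := by
  obtain ⟨ξ, -, hξ⟩ := qq_supp h
  funext s
  have e : tch ex ey (pts (x ∪ A)) s ↔ tch ex ey (pts x) s ∨ tch ex ey (pts A) s := by
    simp only [tch, pts_union, mem_union]; tauto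
  simp only [pin, cn_eq hξ, cn_eq (subset_union_left.trans hξ),
    cn_eq (subset_union_right.trans hξ), e]
  by_cases h1 : tch ex ey (pts x) s <;> by_cases h2 : tch ex ey (pts A) s <;> simp [h1, h2]

lemma var_add_le {Ω : Type} [Fintype Ω] [DecidableEq Ω] {μ : Ω → ℝ} (hμ : Op.Pr μ) (f g : Ω → ℝ) {t : ℝ}
    (ht : 0 < t) : var μ (fun ω => f ω + g ω) ≤ (1 + t) * var μ f + (1 + 1 / t) * var μ g := by
  rw [var, var, var, ex_add, nsq_eq_ex, nsq_eq_ex, nsq_eq_ex, ← ex_mul, ← ex_mul (1 + 1 / t),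
    ← ex_add (fun ω => (1 + t) * _)]
  refine ex_mono hμ.nn fun ω => ?_
  set y := f ω - Op.ex μ f
  set z := g ω - Op.ex μ g
  have e : f ω + g ω - (Op.ex μ f + Op.ex μ g) = y + z := by ring
  have k : (1 + t) * y ^ 2 + (1 + 1 / t) * z ^ 2 - (y + z) ^ 2 = (t * y - z) ^ 2 / t := by
    field_simp; ring
  have : 0 ≤ (t * y - z) ^ 2 / t := by positivity
  rw [e]; linarith

variable {Sa : Lp T Λ → Prop} {Gw : Finset (Lp T Λ) → Lp T Λ → Prop} {κ ε : ℝ}

lemma sqD_le (hD : ∀ g, 0 ≤ D g ∧ D g ≤ 1) (a : Lp T Λ → ℝ) (g : Lp T Λ) :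
    (a g * D g) ^ 2 ≤ a g ^ 2 * D g := by
  have := mul_nonneg (sq_nonneg (a g)) (mul_nonneg (hD g).1 (sub_nonneg.2 (hD g).2))
  nlinarith

/-- **TKa.** -/
theorem tka : TKaStmt := by
  intro Λ _ _ T _ ex ey p u D Sa Gw κ ε t H ht a ha
  have hν := pr_nu (cpt_qq (ex := ex) (ey := ey) H.hp) fun g => (H.hu g).1
  have aD0 : ∀ g, 0 ≤ a g ^ 2 * D g := fun g => mul_nonneg (sq_nonneg _) (H.hD g).1
  have r := rare_sum (c := fun g => a g ^ 2 * D g) (E := fun g w => ¬ Gw w g) aD0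
    fun g hg => H.rare g (ha g fun z => hg (by simp [z]))
  have key : ∀ w, nu (qq ex ey p) u w ≠ 0 →
      var (Pw (pin ex ey p w)) (Ph ex ey (off (· ∈ w) fun g => a g * D g)) ≤
      U ex ey p (fun g => (a g * D g) ^ 2) w + (κ + t * (1 + κ)) * U ex ey p (fun g => a g ^ 2 * D g) w
        + (1 + 1 / t) * Fintype.card Λ * U ex ey p (fun g => a g ^ 2 * D g * i1 (¬ Gw w g)) w := by
    intro w hw
    have hp' := pin_mem (ex := ex) (ey := ey) H.hp w
    have hP := pr_Pw hp'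
    set a1 : Lp T Λ → ℝ := fun g => off (· ∈ w) a g * i1 (Gw w g) with ha1
    set c2 : Lp T Λ → ℝ := off (· ∈ w) fun g => a g * D g * i1 (¬ Gw w g) with hc2
    have sp : Ph ex ey (off (· ∈ w) fun g => a g * D g) =
        fun ξ => Ph ex ey (fun g => a1 g * D g) ξ + Ph ex ey c2 ξ := by
      funext ξ; rw [← Ph_add]; congr 1; funext g
      simp only [a1, c2, off, i1_not]; split_ifs <;> ring
    have s1 : ∀ g, a1 g ≠ 0 → g ∉ w ∧ Gw w g := fun g h =>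
      ⟨fun k => h (by simp [a1, off, k]), by by_contra k; exact h (by simp [a1, i1_neg k])⟩
    have cr := H.crs w hw a1 (fun g => a1 g * D g) s1 fun g h => s1 g (left_ne_zero_of_mul h)
    have m1 : Op.ex (Pw (pin ex ey p w)) (Ph ex ey fun g => a1 g ^ 2 * D g) ≤
        U ex ey p (fun g => a g ^ 2 * D g) w := ex_mono hP.nn (Ph_mono fun g => by
      have := mul_le_mul_of_nonneg_left (i1_le (Gw w g)) (aD0 g)
      simp only [a1, off, mul_pow, i1_sq]; split_ifs <;> nlinarith)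
    have m2 : Op.ex (Pw (pin ex ey p w)) (Ph ex ey fun g => (a1 g * D g) ^ 2) ≤
        U ex ey p (fun g => (a g * D g) ^ 2) w := ex_mono hP.nn (Ph_mono fun g => by
      have := mul_le_mul_of_nonneg_left (i1_le (Gw w g)) (sq_nonneg (a g * D g))
      simp only [a1, off, mul_pow, i1_sq]; split_ifs <;> nlinarith)
    have m3 := U_mono (ex := ex) (ey := ey) H.hp (sqD_le H.hD a) w
    have n0 := U_nn (ex := ex) (ey := ey) H.hp aD0 w
    have n1 : 0 ≤ Op.ex (Pw (pin ex ey p w)) (Ph ex ey fun g => (a1 g * D g) ^ 2) :=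
      ex_nn hP.nn (Ph_nn fun _ => sq_nonneg _)
    simp only [← sq] at cr
    rw [← nsq_eq_ex, ← hP.var_eq] at cr
    have v1 : var (Pw (pin ex ey p w)) (Ph ex ey fun g => a1 g * D g) ≤
        U ex ey p (fun g => (a g * D g) ^ 2) w + κ * U ex ey p (fun g => a g ^ 2 * D g) w := by
      have := cr.trans (mul_le_mul (mul_le_mul_of_nonneg_left m1 (sq_nonneg κ)) (m2.trans m3) n1
        (by positivity))
      rw [mul_assoc, ← sq, ← mul_pow] at this
      have := abs_le_of_sq_le_sq' this (mul_nonneg H.κ0 n0)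
      linarith [this.2]
    have v2 : var (Pw (pin ex ey p w)) (Ph ex ey c2) ≤
        Fintype.card Λ * U ex ey p (fun g => a g ^ 2 * D g * i1 (¬ Gw w g)) w := by
      refine (hP.var_le _).trans ((nsq_Ph_le hp' _).trans (mul_le_mul_of_nonneg_left ?_
        (Nat.cast_nonneg _)))
      rw [hc2, off_sq]
      refine U_mono H.hp (fun g => ?_) w
      rw [mul_pow, i1_sq]
      exact mul_le_mul_of_nonneg_right (sqD_le H.hD a g) (i1_nn _)
    rw [sp]
    refine (var_add_le hP _ _ ht).trans ?_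
    have := mul_le_mul_of_nonneg_left v2 (show 0 ≤ 1 + 1 / t by positivity)
    have := mul_le_mul_of_nonneg_left v1 (show 0 ≤ 1 + t by positivity)
    nlinarith [mul_le_mul_of_nonneg_left m3 ht.le]
  refine (ex_mono_ae hν.nn key).trans ?_
  rw [ex_add, ex_add, ex_mul, ex_mul, κa]
  have := mul_le_mul_of_nonneg_left r (show 0 ≤ (1 + 1 / t) * Fintype.card Λ by positivity)
  linarith

end Crest.Agent.N337.TK
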