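import Crest.Agent.N337.TK.Bas

/-!
# Row 337, TK: the birth-death form of `U p (a D)`
-/

set_option autoImplicit false
set_option linter.unusedSectionVars false

namespace Crest.Agent.N337.TK

open Finset Crest.Agent.N337.Rep Crest.Agent.N337.LY0 Crest.Agent.N337.Op Crest.Agent.N337.Gas

variable {Λ : Type} [Fintype Λ] [DecidableEq Λ] {T : ℕ} [NeZero T] {ex ey : Fin T → Λ}
  {p : Fin T → ℝ} {u D a b c : Lp T Λ → ℝ} {w x A : Finset (Lp T Λ)} {g : Lp T Λ}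

lemma nu_insert (hp : ∀ s, 0 ≤ p s ∧ p s ≤ 1) (hg : g ∉ A) :
    nu (qq ex ey p) u (insert g A) = nu (qq ex ey p) u A * (u g * Up ex ey p A g) := by
  by_cases h : qq ex ey p A = 0
  · have : qq ex ey p (insert g A) = 0 := le_antisymm
      (h ▸ (cpt_qq hp).anti _ _ (subset_insert g A)) ((cpt_qq hp).nn _)
    simp [Gas.nu, gw, h, this]
  · rw [Gas.nu, Gas.nu, gw_insert hg h, sh_qq h, Up, if_neg hg]; ring

/-- GNZ for the loop gas. -/
lemma gnz_up (hp : ∀ s, 0 ≤ p s ∧ p s ≤ 1) (u : Lp T Λ → ℝ) (f : Finset (Lp T Λ) → Lp T Λ → ℝ) :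
    Op.ex (nu (qq ex ey p) u) (fun A => ∑ g ∈ A, f (A.erase g) g) =
      Op.ex (nu (qq ex ey p) u) fun A => ∑ g, u g * Up ex ey p A g * f A g := by
  rw [Op.ex, gnz, Op.ex]
  refine sum_congr rfl fun A _ => ?_
  rw [← sum_add_sum_compl A, sum_eq_zero (s := A) fun g hg => by simp [Up, hg], zero_add, mul_sum]
  exact sum_congr rfl fun g hg => by rw [nu_insert hp (mem_compl.1 hg)]; ring

lemma card_le_of_qq (h : qq ex ey p w ≠ 0) : w.card ≤ Fintype.card Λ := by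
  obtain ⟨ξ, -, hξ⟩ := qq_supp h
  exact (card_le_card hξ).trans (card_L ξ)

lemma ex_Ph_mul (p : Fin T → ℝ) (b : Lp T Λ → ℝ) (G : (Fin T → Bool) → ℝ) :
    Op.ex (Pw p) (fun ξ => Ph ex ey b ξ * G ξ) =
      ∑ g, b g * ∑ ξ, (Pw p ξ * if {g} ⊆ L ex ey ξ then 1 else 0) * G ξ := by
  simp only [Op.ex, Ph, mul_sum, sum_mul, singleton_subset_iff]
  rw [sum_comm]
  refine sum_congr rfl fun ξ _ => ?_
  rw [← sum_filter_add_sum_filter_not univ (· ∈ L ex ey ξ), filter_mem_eq_inter, univ_inter,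
    sum_eq_zero (s := univ.filter _) fun g hg => by simp [(mem_filter.1 hg).2], add_zero]
  exact sum_congr rfl fun g hg => by rw [if_pos hg]; ring

/-- the response to the birth of `g`. -/
lemma resp (hp : ∀ s, 0 ≤ p s ∧ p s ≤ 1) (hw : qq ex ey p w ≠ 0) (hg : g ∉ w) (c : Lp T Λ → ℝ) :
    ∑ ξ, (Pw (pin ex ey p w) ξ * if {g} ⊆ L ex ey ξ then 1 else 0) * Ph ex ey (off (· ∈ w) c) ξ =
      Up ex ey p w g * (U ex ey p c (insert g w) + c g) := by
  rw [Up, if_neg hg]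
  by_cases h : qq ex ey (pin ex ey p w) {g} = 0
  · rw [h, zero_mul]
    refine sum_eq_zero fun ξ _ => ?_
    rw [(sum_eq_zero_iff_of_nonneg fun ξ _ => mul_nonneg (Pw_nonneg (pin_mem hp w) ξ)
      (by split_ifs <;> norm_num)).1 h ξ (mem_univ ξ), zero_mul]
  have h2 : qq ex ey p (w ∪ {g}) ≠ 0 := fun z => h (by rw [← sh_qq hw, sh, z, zero_div])
  simp only [Pw_cond h, mul_assoc, ← mul_sum]
  congr 1
  rw [U, insert_eq, union_comm, ← pin_pin h2,
    ← (pr_Pw (pin_mem (ex := ex) (ey := ey) (pin_mem (ex := ex) (ey := ey) hp w) {g})).ex_const (c g),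
    ← ex_add]
  refine ex_congr fun ξ hξ => ?_
  have hL := singleton_subset_iff.1 (sub_L_of_pin h hξ).2
  rw [Ph, Ph, ← add_sum_erase _ _ hL, ← add_sum_erase _ _ hL]
  simp only [off, hg, if_false, mem_union, mem_singleton, or_true, if_true, zero_add]
  rw [add_comm]
  congr 1
  exact sum_congr rfl fun g' h' => by simp [(mem_erase.1 h').1]

/-- covariance minus diagonal. -/
noncomputable def Br (ex ey : Fin T → Λ) (p : Fin T → ℝ) (a b : Lp T Λ → ℝ) : ℝ :=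
  Op.ex (Pw p) (fun ξ => Ph ex ey a ξ * Ph ex ey b ξ) -
    Op.ex (Pw p) (Ph ex ey a) * Op.ex (Pw p) (Ph ex ey b) - Op.ex (Pw p) (Ph ex ey fun g => a g * b g)

lemma Br_add (a a' b : Lp T Λ → ℝ) :
    Br ex ey p (fun g => a g + a' g) b = Br ex ey p a b + Br ex ey p a' b := by
  have e : ∀ f f' : Lp T Λ → ℝ, Ph ex ey (fun g => f g + f' g) =
      fun ξ => Ph ex ey f ξ + Ph ex ey f' ξ := fun f f' => funext (Ph_add f f')
  simp only [Br, add_mul, e, ex_add]; ring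

lemma Br_resp (hp : ∀ s, 0 ≤ p s ∧ p s ≤ 1) (hw : qq ex ey p w ≠ 0) (hb : ∀ g ∈ w, b g = 0)
    (c : Lp T Λ → ℝ) : Br ex ey (pin ex ey p w) (off (· ∈ w) c) b =
      ∑ g, b g * Up ex ey p w g * (U ex ey p c (insert g w) - U ex ey p c w) := by
  simp only [Br, mul_comm (Ph ex ey (off _ c) _)]
  rw [ex_Ph_mul, ex_Ph _ b, ex_Ph _ fun g => off _ c g * b g, ← U, mul_sum, ← sum_sub_distrib,
    ← sum_sub_distrib]
  refine sum_congr rfl fun g _ => ?_
  by_cases hg : g ∈ w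
  · simp [hb g hg]
  · rw [resp hp hw hg]; simp only [Up, off, hg, if_false]; ring

lemma Br_crude (hp : ∀ s, 0 ≤ p s ∧ p s ≤ 1) (a b : Lp T Λ → ℝ) : Br ex ey p a b ^ 2 ≤
    (Fintype.card Λ + 1) ^ 2 * (Op.ex (Pw p) (Ph ex ey fun g => a g ^ 2) *
      Op.ex (Pw p) (Ph ex ey fun g => b g ^ 2)) := by
  have hP := pr_Pw hp
  set M := Op.ex (Pw p) (Ph ex ey fun g => a g ^ 2) * Op.ex (Pw p) (Ph ex ey fun g => b g ^ 2)
    with hM
  have a0 : ∀ f : Lp T Λ → ℝ, 0 ≤ Op.ex (Pw p) (Ph ex ey fun g => f g ^ 2) := fun f =>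
    ex_nn hP.nn (Ph_nn fun _ => sq_nonneg _)
  have hs : Real.sqrt M ^ 2 = M := Real.sq_sqrt (mul_nonneg (a0 a) (a0 b))
  have s0 := Real.sqrt_nonneg M
  have c1 : (Op.ex (Pw p) (fun ξ => Ph ex ey a ξ * Ph ex ey b ξ) -
      Op.ex (Pw p) (Ph ex ey a) * Op.ex (Pw p) (Ph ex ey b)) ^ 2 ≤
      (Fintype.card Λ * Real.sqrt M) ^ 2 := by
    have k := cs hP.nn (fun ξ => Ph ex ey a ξ - Op.ex (Pw p) (Ph ex ey a)) (Ph ex ey b)
    have e : ip (Pw p) (fun ξ => Ph ex ey a ξ - Op.ex (Pw p) (Ph ex ey a)) (Ph ex ey b) =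
        Op.ex (Pw p) (fun ξ => Ph ex ey a ξ * Ph ex ey b ξ) -
          Op.ex (Pw p) (Ph ex ey a) * Op.ex (Pw p) (Ph ex ey b) := by
      rw [← ex_mul, ← ex_sub, ip_eq_ex]; simp only [sub_mul]
    rw [e] at k
    refine k.trans ((mul_le_mul ((hP.var_le _).trans (nsq_Ph_le hp a)) (nsq_Ph_le hp b)
      (nsq_nn hP.nn _) (mul_nonneg (Nat.cast_nonneg _) (a0 a))).trans (le_of_eq ?_))
    rw [mul_pow, hs, hM]; ring
  have c2 : Op.ex (Pw p) (Ph ex ey fun g => a g * b g) ^ 2 ≤ Real.sqrt M ^ 2 := by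
    rw [hs, hM, ex_Ph, ex_Ph, ex_Ph]
    have q0 := (cpt_qq (ex := ex) (ey := ey) hp).nn
    exact sum_sq_le_sum_mul_sum_of_sq_le_mul _ (fun g _ => mul_nonneg (sq_nonneg _) (q0 _))
      (fun g _ => mul_nonneg (sq_nonneg _) (q0 _)) fun g _ => le_of_eq (by ring)
  have d1 := abs_le_of_sq_le_sq' c1 (by positivity)
  have d2 := abs_le_of_sq_le_sq' c2 s0
  rw [← hs, ← mul_pow, Br]
  exact sq_le_sq' (by linarith [d1.1, d2.2]) (by linarith [d1.2, d2.1])

variable {Sa : Lp T Λ → Prop} {Gw : Finset (Lp T Λ) → Lp T Λ → Prop} {κ ε : ℝ}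

/-- good births. -/
lemma HA.good (H : HA ex ey p u D Sa Gw κ ε) (a : Lp T Λ → ℝ) (hw : nu (qq ex ey p) u w ≠ 0) :
    ∑ g, u g * Up ex ey p w g * (i1 (Gw w g) * (U ex ey p (fun g => a g * D g) (insert g w) -
      U ex ey p (fun g => a g * D g) w) ^ 2) ≤
    2 * κ ^ 2 * U ex ey p (fun g => a g ^ 2 * D g) w + 2 * (Fintype.card Λ + 1) ^ 2 *
      U ex ey p (fun g => a g ^ 2 * D g * i1 (¬ Gw w g)) w := by
  set F := U ex ey p fun g => a g * D g with hF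
  set X := ∑ g, u g * Up ex ey p w g * (i1 (Gw w g) * (F (insert g w) - F w) ^ 2) with hX
  have hp' := pin_mem (ex := ex) (ey := ey) H.hp w
  have hP := pr_Pw hp'
  have aD0 : ∀ g, 0 ≤ a g ^ 2 * D g := fun g => mul_nonneg (sq_nonneg _) (H.hD g).1
  set b : Lp T Λ → ℝ := off (· ∈ w) fun g => u g * i1 (Gw w g) * (F (insert g w) - F w) with hb
  set a1 : Lp T Λ → ℝ := fun g => off (· ∈ w) a g * i1 (Gw w g) with ha1
  set c2 : Lp T Λ → ℝ := off (· ∈ w) fun g => a g * D g * i1 (¬ Gw w g) with hc2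
  have e1 : X = Br ex ey (pin ex ey p w) (fun g => a1 g * D g) b + Br ex ey (pin ex ey p w) c2 b := by
    rw [← Br_add, show (fun g => a1 g * D g + c2 g) = off (· ∈ w) fun g => a g * D g from
      funext fun g => by simp only [a1, c2, off, i1_not]; split_ifs <;> ring,
      Br_resp H.hp (nu_supp hw).1 fun g hg => by simp [b, off, hg]]
    refine sum_congr rfl fun g _ => ?_
    simp only [b, off, Up]; split_ifs <;> ring
  have e2 : Op.ex (Pw (pin ex ey p w)) (Ph ex ey fun g => b g ^ 2) ≤ X := by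
    rw [hb, off_sq, ← U, U_eq]
    refine sum_le_sum fun g _ => ?_
    have h1 := mul_nonneg (mul_nonneg (Up_nn (ex := ex) (ey := ey) H.hp w g) (i1_nn (Gw w g)))
      (sq_nonneg (F (insert g w) - F w))
    have h2 := mul_nonneg (mul_nonneg (H.hu g).1 (sub_nonneg.2 (H.hu g).2)) h1
    rw [mul_pow, mul_pow, i1_sq]; nlinarith
  have cr := H.crs w hw a1 b (fun g h => ⟨fun k => h (by simp [a1, off, k]),
    by by_contra k; exact h (by simp [a1, i1_neg k])⟩) fun g h =>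
    ⟨fun k => h (by simp [b, off, k]), by by_contra k; exact h (by simp [b, off, i1_neg k])⟩
  have m1 : Op.ex (Pw (pin ex ey p w)) (Ph ex ey fun g => a1 g ^ 2 * D g) ≤
      U ex ey p (fun g => a g ^ 2 * D g) w := ex_mono hP.nn (Ph_mono fun g => by
    have := mul_le_mul_of_nonneg_left (i1_le (Gw w g)) (aD0 g)
    simp only [a1, off, mul_pow, i1_sq]; split_ifs <;> nlinarith)
  have m2 : Op.ex (Pw (pin ex ey p w)) (Ph ex ey fun g => c2 g ^ 2) ≤
      U ex ey p (fun g => a g ^ 2 * D g * i1 (¬ Gw w g)) w := by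
    rw [hc2, off_sq]
    refine U_mono H.hp (fun g => ?_) w
    rw [mul_pow, i1_sq]
    exact mul_le_mul_of_nonneg_right (sqD_le H.hD a g) (i1_nn _)
  have b0 : 0 ≤ Op.ex (Pw (pin ex ey p w)) (Ph ex ey fun g => b g ^ 2) :=
    ex_nn hP.nn (Ph_nn fun _ => sq_nonneg _)
  have n0 := U_nn (ex := ex) (ey := ey) H.hp aD0 w
  have n1 := U_nn (ex := ex) (ey := ey) H.hp (fun g => mul_nonneg (aD0 g) (i1_nn (¬ Gw w g))) w
  have k1 := cr.trans (mul_le_mul (mul_le_mul_of_nonneg_left m1 (sq_nonneg κ)) e2 b0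
    (by positivity))
  have k2 := (Br_crude hp' c2 b).trans (mul_le_mul_of_nonneg_left (mul_le_mul m2 e2 b0 n1)
    (sq_nonneg _))
  change Br ex ey (pin ex ey p w) (fun g => a1 g * D g) b ^ 2 ≤ _ at k1
  refine PH.le_of_sq_le_mul (by positivity) ?_
  have : X ^ 2 ≤ 2 * Br ex ey (pin ex ey p w) (fun g => a1 g * D g) b ^ 2 +
      2 * Br ex ey (pin ex ey p w) c2 b ^ 2 := by
    rw [e1]; nlinarith [sq_nonneg (Br ex ey (pin ex ey p w) (fun g => a1 g * D g) b -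
      Br ex ey (pin ex ey p w) c2 b)]
  linarith

/-- **D-part.** -/
theorem HA.dir (H : HA ex ey p u D Sa Gw κ ε) {Bad : Finset (Lp T Λ) → Prop}
    (bad : ∀ g, Sa g → Rare ex ey p u g Bad ε)
    (death : ∀ w, nu (qq ex ey p) u w ≠ 0 → ¬ Bad w → ∀ g ∈ w, Gw (w.erase g) g)
    (birth : ∀ w, nu (qq ex ey p) u w ≠ 0 → ¬ Bad w →
      ∑ g, u g * Up ex ey p w g * i1 (¬ Gw w g) ≤ ε) (ha : ∀ g, a g ≠ 0 → Sa g) :
    Dir (nu (qq ex ey p) u) (U ex ey p fun g => a g * D g) ≤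
      (2 * κ ^ 2 + 6 * (Fintype.card Λ + 1) ^ 2 * ε) *
        Op.ex (nu (qq ex ey p) u) (U ex ey p fun g => a g ^ 2 * D g) := by
  have hu0 := fun g => (H.hu g).1
  have hν := pr_nu (cpt_qq (ex := ex) (ey := ey) H.hp) hu0
  set F := U ex ey p fun g => a g * D g with hF
  set n : ℝ := (Fintype.card Λ : ℝ) with hn
  have n0 : 0 ≤ n := Nat.cast_nonneg _
  have ε0 := H.ε0
  set Y := Op.ex (nu (qq ex ey p) u) (U ex ey p fun g => a g ^ 2 * D g) with hY
  have aD0 : ∀ g, 0 ≤ a g ^ 2 * D g := fun g => mul_nonneg (sq_nonneg _) (H.hD g).1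
  have Y0 : 0 ≤ Y := ex_nn hν.nn (U_nn H.hp aD0)
  have r := rare_sum (c := fun g => a g ^ 2 * D g) (E := fun g w => ¬ Gw w g) aD0
    fun g hg => H.rare g (ha g fun z => hg (by simp [z]))
  have m3 : Op.ex (nu (qq ex ey p) u) (U ex ey p fun g => (a g * D g) ^ 2) ≤ Y :=
    ex_mono hν.nn (U_mono H.hp (sqD_le H.hD a))
  have r2 : Op.ex (nu (qq ex ey p) u) (fun w => i1 (Bad w) * F w ^ 2) ≤ n * (ε * Y) :=
    (rare_sq H.hp hu0 fun g hg => bad g (ha g (left_ne_zero_of_mul hg))).trans (by gcongr)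
  have r3 : Op.ex (nu (qq ex ey p) u) (fun w => F w ^ 2) ≤ n * Y :=
    (ex_mono hν.nn (U_sq_le H.hp _)).trans (by rw [ex_mul]; gcongr)
  have s1 : Dir (nu (qq ex ey p) u) F ≤ Op.ex (nu (qq ex ey p) u) (fun A => ∑ g ∈ A,
      i1 (Gw (A.erase g) g) * (F (insert g (A.erase g)) - F (A.erase g)) ^ 2) +
      2 * n * Op.ex (nu (qq ex ey p) u) (fun w => i1 (Bad w) * F w ^ 2) +
      2 * Op.ex (nu (qq ex ey p) u) fun A => ∑ g ∈ A, i1 (¬ Gw (A.erase g) g) * F (A.erase g) ^ 2 := by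
    rw [← ex_mul, ← ex_mul, ← ex_add, ← ex_add]
    refine ex_mono_ae hν.nn fun A hA => ?_
    have k : ∑ g ∈ A, i1 (¬ Gw (A.erase g) g) * F A ^ 2 ≤ n * (i1 (Bad A) * F A ^ 2) := by
      by_cases hB : Bad A
      · rw [i1_pos hB, one_mul]
        refine (sum_le_card_nsmul _ _ (F A ^ 2) fun g _ =>
          mul_le_of_le_one_left (sq_nonneg _) (i1_le _)).trans ?_
        rw [nsmul_eq_mul]
        exact mul_le_mul_of_nonneg_right (Nat.cast_le.2 (card_le_of_qq (nu_supp hA).1)) (sq_nonneg _)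
      · rw [i1_neg hB, sum_eq_zero fun g hg => by rw [i1_neg (not_not.2 (death A hA hB g hg)), zero_mul]]
        simp
    have k2 : ∑ g ∈ A, (F A - F (A.erase g)) ^ 2 ≤ ∑ g ∈ A, (i1 (Gw (A.erase g) g) *
        (F (insert g (A.erase g)) - F (A.erase g)) ^ 2 + 2 * (i1 (¬ Gw (A.erase g) g) * F A ^ 2) +
        2 * (i1 (¬ Gw (A.erase g) g) * F (A.erase g) ^ 2)) := sum_le_sum fun g hg => by
      rw [insert_erase hg]
      by_cases k : Gw (A.erase g) g
      · simp [i1_pos k, i1_neg (not_not.2 k)]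
      · rw [i1_neg k, i1_pos k]; nlinarith [sq_nonneg (F A + F (A.erase g))]
    rw [sum_add_distrib, sum_add_distrib, ← mul_sum, ← mul_sum] at k2
    linarith
  rw [gnz_up H.hp u fun A g => i1 (Gw A g) * (F (insert g A) - F A) ^ 2,
    gnz_up H.hp u fun A g => i1 (¬ Gw A g) * F A ^ 2] at s1
  have s2 := ex_mono_ae hν.nn fun w hw => H.good a hw
  rw [ex_add, ex_mul, ex_mul] at s2
  have s3 : Op.ex (nu (qq ex ey p) u) (fun A => ∑ g, u g * Up ex ey p A g *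
      (i1 (¬ Gw A g) * F A ^ 2)) ≤ ε * Op.ex (nu (qq ex ey p) u) (fun w => F w ^ 2) +
      n * Op.ex (nu (qq ex ey p) u) fun w => i1 (Bad w) * F w ^ 2 := by
    rw [← ex_mul, ← ex_mul, ← ex_add]
    refine ex_mono_ae hν.nn fun A hA => ?_
    simp only [← mul_assoc, ← sum_mul, ← add_mul]
    refine mul_le_mul_of_nonneg_right ?_ (sq_nonneg _)
    by_cases hB : Bad A
    · rw [i1_pos hB, mul_one]
      refine le_trans (sum_le_sum fun g _ => ?_)
        ((U_one_le (ex := ex) (ey := ey) H.hp A).trans (le_add_of_nonneg_left ε0))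
      have := Up_nn (ex := ex) (ey := ey) H.hp A g
      exact (mul_le_of_le_one_right (mul_nonneg (hu0 g) this) (i1_le _)).trans
        (mul_le_of_le_one_left this (H.hu g).2)
    · rw [i1_neg hB, mul_zero, add_zero]; exact birth A hA hB
  have t1 := mul_le_mul_of_nonneg_left r (show 0 ≤ 2 * (n + 1) ^ 2 by positivity)
  have t2 := mul_le_mul_of_nonneg_left r2 n0
  have t3 := mul_le_mul_of_nonneg_left r3 ε0
  have t4 : 0 ≤ (6 * n + 4) * (ε * Y) := by positivity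
  nlinarith

end Crest.Agent.N337.TK
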