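import Crest.Agent.N337.TK.Bas

/-!
# Row 337, TK: the product space (prior coins, block gases) and the block-revealing explorer
-/

set_option autoImplicit false
set_option linter.unusedSectionVars false

namespace Crest.Agent.N337.TK

open Finset Crest.Agent.N337.Rep Crest.Agent.N337.LY0 Crest.Agent.N337.Op Crest.Agent.N337.Gas

lemma meas_of_supp {ι : Type} [Fintype ι] [DecidableEq ι] {E : ι → Type} [∀ i, Fintype (E i)]
    {R : (∀ i, E i) → Finset ι} (hR : PH.Stop R) {f : (∀ i, E i) → ℝ}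
    (h : ∀ ω ω', (∀ i ∈ R ω, ω' i = ω i) → f ω ≠ 0 → f ω' = f ω) : PH.Meas R f := by
  intro ω ω' e
  by_cases h1 : f ω = 0
  · by_cases h2 : f ω' = 0
    · exact h2.trans h1.symm
    · exact (h ω' ω (fun i hi => (e i (hR ω ω' e ▸ hi)).symm) h2).symm
  · exact h ω ω' e h1

/-- cells: prior coins and block configurations. -/
@[reducible] def Cell (T : ℕ) (Λ ι : Type) : Fin T ⊕ ι → Type
  | Sum.inl _ => Bool
  | Sum.inr _ => Finset (Lp T Λ)

variable {Λ : Type} [Fintype Λ] [DecidableEq Λ] {T : ℕ} [NeZero T] {ι : Type} [Fintype ι]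
  [DecidableEq ι]

instance (i : Fin T ⊕ ι) : Fintype (Cell T Λ ι i) :=
  match i with
  | Sum.inl _ => inferInstanceAs (Fintype Bool)
  | Sum.inr _ => inferInstanceAs (Fintype (Finset (Lp T Λ)))

def jn (ξ : Fin T → Bool) (ω : ι → Finset (Lp T Λ)) : ∀ i, Cell T Λ ι i
  | Sum.inl s => ξ s
  | Sum.inr i => ω i

def law (p : Fin T → ℝ) (ν : ι → Finset (Lp T Λ) → ℝ) : ∀ i, Cell T Λ ι i → ℝ
  | Sum.inl s => Arc.pb p s
  | Sum.inr i => ν i

def co (η : ∀ i, Cell T Λ ι i) : Fin T → Bool := fun s => η (Sum.inl s)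
def bl (η : ∀ i, Cell T Λ ι i) : ι → Finset (Lp T Λ) := fun i => η (Sum.inr i)

variable {p : Fin T → ℝ} {ν : ι → Finset (Lp T Λ) → ℝ}

lemma pr_law (hp : ∀ s, 0 ≤ p s ∧ p s ≤ 1) (hν : ∀ i, Op.Pr (ν i)) : PH.Pr (law p ν) :=
  ⟨fun i => match i with
    | Sum.inl s => (Arc.pr_pb hp).nn s
    | Sum.inr i => (hν i).nn, fun i => match i with
    | Sum.inl s => (Arc.pr_pb hp).one s
    | Sum.inr i => (hν i).one⟩

lemma ex_law (F : (Fin T → Bool) → (ι → Finset (Lp T Λ)) → ℝ) :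
    PH.ex (law p ν) (fun η => F (co η) (bl η)) =
      Op.ex (pm ν) fun ω => Op.ex (Pw p) fun ξ => F ξ ω := by
  simp only [Op.ex, mul_sum]
  rw [← sum_product', univ_product_univ, PH.ex]
  refine Fintype.sum_bijective (fun η => (bl η, co η)) ⟨fun η η' h => ?_, fun z =>
    ⟨jn z.2 z.1, rfl⟩⟩ _ _ fun η => ?_
  · funext i
    rcases i with s | i
    exacts [congrFun (congrArg Prod.snd h) s, congrFun (congrArg Prod.fst h) i]
  · rw [PH.w, Fintype.prod_sum_type, mul_comm (∏ s, _), mul_assoc]; rfl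

variable (ex ey : Fin T → Λ) (B Bp : ι → Finset Λ)

/-- well formed polymers. -/
def Wf (g : Lp T Λ) : Prop := ∀ s, g.1 s = true → tch ex ey g.2 s

open Classical in
/-- the down loops. -/
noncomputable def W (ω : ι → Finset (Lp T Λ)) : Finset (Lp T Λ) :=
  un fun i => (ω i).filter fun g => In (B i) g ∧ Wf ex ey g

/-- the coins touching `w` are forced. -/
noncomputable def frc (w : Finset (Lp T Λ)) (ξ : Fin T → Bool) : Fin T → Bool :=
  PH.pw (E := fun _ : Fin T => Bool) (Arc.tch ex ey (pts w)) (cn w) ξ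

/-- the true coins. -/
noncomputable def Xi (η : ∀ i, Cell T Λ ι i) : Fin T → Bool := frc ex ey (W ex ey B (bl η)) (co η)

open Classical in
/-- the block-revealing explorer. -/
noncomputable def Y (ok : (ℕ → Fin T × Λ) → ℕ → Prop) (r : Λ) (t : ℕ) (η : ∀ i, Cell T Λ ι i) :
    Finset (Fin T ⊕ ι) := (Arc.X ex ey ok (0, r) t (Xi ex ey B η)).disjSum
  (univ.filter fun i => ∃ v ∈ Arc.Al ex ey ok (0, r) t (Xi ex ey B η), v.2 ∈ Bp i)

/-- groups. -/
def grp (T : ℕ) (ι : Type) : Fin T ⊕ ι → Option ι := Sum.elim (fun _ => none) some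

variable {ex ey B Bp}

lemma mem_W {ω : ι → Finset (Lp T Λ)} {g : Lp T Λ} :
    g ∈ W ex ey B ω ↔ ∃ i, g ∈ ω i ∧ In (B i) g ∧ Wf ex ey g := by simp [W, un]

lemma ex_frc (w : Finset (Lp T Λ)) (f : (Fin T → Bool) → ℝ) :
    Op.ex (Pw p) (fun ξ => f (frc ex ey w ξ)) = Op.ex (Pw (pin ex ey p w)) f := by
  have e : pin ex ey p w = Arc.pin p (Arc.tch ex ey (pts w)) (cn w) := by
    funext s; simp only [pin, Arc.pin, Arc.mem_tch]; rfl
  rw [e]; exact Arc.C_pin _ f _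

lemma ex_Xi (F : Finset (Lp T Λ) → (Fin T → Bool) → ℝ) :
    PH.ex (law p ν) (fun η => F (W ex ey B (bl η)) (Xi ex ey B η)) =
      Op.ex (pm ν) fun ω => Op.ex (Pw (pin ex ey p (W ex ey B ω))) (F (W ex ey B ω)) := by
  refine (ex_law fun ξ ω => F (W ex ey B ω) (frc ex ey (W ex ey B ω) ξ)).trans ?_
  simp only [ex_frc]

variable {ok : (ℕ → Fin T × Λ) → ℕ → Prop} {r : Λ} {t : ℕ} {η η' : ∀ i, Cell T Λ ι i}

lemma inl_Y {s : Fin T} :
    Sum.inl s ∈ Y ex ey B Bp ok r t η ↔ s ∈ Arc.X ex ey ok (0, r) t (Xi ex ey B η) :=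
  inl_mem_disjSum

lemma inr_Y {i : ι} : Sum.inr i ∈ Y ex ey B Bp ok r t η ↔
    ∃ v ∈ Arc.Al ex ey ok (0, r) t (Xi ex ey B η), v.2 ∈ Bp i := by
  rw [Y, inr_mem_disjSum, mem_filter]; simp only [mem_univ, true_and]

lemma Xi_loc (hst : ∀ i s, ex s ∈ B i ∨ ey s ∈ B i → ex s ∈ Bp i ∧ ey s ∈ Bp i)
    (h : ∀ i ∈ Y ex ey B Bp ok r t η, η' i = η i) :
    ∀ s ∈ Arc.X ex ey ok (0, r) t (Xi ex ey B η), Xi ex ey B η' s = Xi ex ey B η s := by
  intro s hs
  have k : ∀ g, tch ex ey g.2 s → (g ∈ W ex ey B (bl η') ↔ g ∈ W ex ey B (bl η)) := fun g hg => by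
    rw [mem_W, mem_W]
    refine exists_congr fun i => and_congr_left fun hi => ?_
    have := hst i s (hg.imp (hi.1.2 _) (hi.1.2 _))
    rw [show bl η' i = bl η i from h (Sum.inr i) (inr_Y.2 (((Arc.mem_tch ex ey).1 hs).elim
      (fun a => ⟨_, a, this.1⟩) fun a => ⟨_, a, this.2⟩))]
  have k1 : s ∈ Arc.tch ex ey (pts (W ex ey B (bl η'))) ↔
      s ∈ Arc.tch ex ey (pts (W ex ey B (bl η))) := by
    rw [Arc.mem_tch, Arc.mem_tch]
    exact tch_pts.trans ((exists_congr fun g => and_congr_left (k g)).trans tch_pts.symm)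
  have k2 : cn (W ex ey B (bl η')) s = cn (W ex ey B (bl η)) s := by
    refine decide_eq_decide.2 ⟨fun ⟨g, a, b⟩ => ⟨g, (k g ?_).1 a, b⟩, fun ⟨g, a, b⟩ =>
      ⟨g, (k g ?_).2 a, b⟩⟩
    all_goals obtain ⟨_, -, -, c⟩ := mem_W.1 a; exact c s b
  simp only [Xi, frc, PH.pw, k1, k2]
  rw [show co η' s = co η s from h (Sum.inl s) (inl_Y.2 hs)]

lemma expl_Y (hr : Arc.Rule ok)
    (hst : ∀ i s, ex s ∈ B i ∨ ey s ∈ B i → ex s ∈ Bp i ∧ ey s ∈ Bp i) (r : Λ) :
    PH.Expl (Y ex ey B Bp ok r) := by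
  refine ⟨fun _ _ => by simp only [Y, Arc.X_zero, Arc.Al_zero], fun t η i hi => ?_,
    fun t η η' h => by simp only [Y, Arc.X, Arc.Al_pred hr (Xi_loc hst h)]⟩
  rcases i with s | i
  · exact inl_Y.2 ((Arc.expl hr).mono t _ (inl_Y.1 hi))
  · obtain ⟨v, h1, h2⟩ := inr_Y.1 hi
    exact inr_Y.2 ⟨v, Arc.Al_mono t.le_succ _ h1, h2⟩

lemma Y_zero (η : ∀ i, Cell T Λ ι i) : Y ex ey B Bp ok r 0 η = ∅ := by
  simp [Y, Arc.X_zero, Arc.Al_zero]

lemma mem_mt_grp {A : Finset (Fin T ⊕ ι)} {γ : Option ι} :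
    γ ∈ PH.mt (grp T ι) (univ.image some) A ↔ ∃ i, Sum.inr i ∈ A ∧ some i = γ := by
  rw [PH.mem_mt]
  constructor
  · rintro ⟨⟨j | j, h1, rfl⟩, h2⟩
    · simp [grp] at h2
    · exact ⟨j, h1, rfl⟩
  · rintro ⟨i, h1, rfl⟩
    exact ⟨⟨_, h1, rfl⟩, by simp⟩

lemma cl_grp (A : Finset (Fin T ⊕ ι)) : PH.Cl (grp T ι) (univ.image some) A := by
  rintro (i | i) hi hG (j | j) e <;> simp_all [grp]

/-- given all blocks, the conditional law is that of the pinned product model. -/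
lemma P_Y (hν : ∀ i, Op.Pr (ν i)) (F : Finset (Lp T Λ) → (Fin T → Bool) → ℝ) :
    PH.P (law p ν) (fun η => Y ex ey B Bp ok r t η ∪ PH.pre (grp T ι) (univ.image some))
      (fun η => F (W ex ey B (bl η)) (Xi ex ey B η)) η =
    PH.P (Arc.pb (pin ex ey p (W ex ey B (bl η)))) (Arc.X ex ey ok (0, r) t)
      (F (W ex ey B (bl η))) (Xi ex ey B η) := by
  set A := Y ex ey B Bp ok r t η ∪ PH.pre (grp T ι) (univ.image some) with hA
  have e1 : ∀ η', bl (PH.pw A η η') = bl η := fun η' => funext fun i =>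
    PH.pw_mem _ _ (mem_union_right _ (by simp [grp]))
  have e2 : ∀ η', Xi ex ey B (PH.pw A η η') = PH.pw (E := fun _ : Fin T => Bool)
      (Arc.X ex ey ok (0, r) t (Xi ex ey B η)) (Xi ex ey B η)
      (frc ex ey (W ex ey B (bl η)) (co η')) := fun η' => by
    funext s
    have : Sum.inl s ∈ A ↔ s ∈ Arc.X ex ey ok (0, r) t (Xi ex ey B η) := by
      rw [hA, mem_union, inl_Y]; simp [grp]
    rw [Xi, e1]
    simp only [frc, PH.pw, co, this]
    split_ifs <;> simp only [Xi, frc, PH.pw, co, *, if_true, if_false]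
  have k := ex_law (p := p) (ν := ν) fun ξ _ => F (W ex ey B (bl η)) (PH.pw
    (E := fun _ : Fin T => Bool) (Arc.X ex ey ok (0, r) t (Xi ex ey B η)) (Xi ex ey B η)
    (frc ex ey (W ex ey B (bl η)) ξ))
  rw [Op.ex, ← sum_mul, (pr_pm hν).one, one_mul, ex_frc (W ex ey B (bl η)) fun ξ => F (W ex ey B (bl η)) (PH.pw
    (E := fun _ : Fin T => Bool) (Arc.X ex ey ok (0, r) t (Xi ex ey B η)) (Xi ex ey B η) ξ)] at k
  refine Eq.trans ?_ k
  simp only [PH.P, PH.ex, ← hA, e1, e2]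

/-- the class of a configuration. -/
lemma cls (hr : Arc.Rule ok) {u : Fin T × Λ} {ξ ξ' : Fin T → Bool}
    (h : ∀ s ∈ Arc.X ex ey ok u t ξ, ξ' s = ξ s) :
    ((∀ j < t, ok (Arc.arc ex ey u ξ') j) ↔ ∀ j < t, ok (Arc.arc ex ey u ξ) j) ∧
    ((∀ j < t, ok (Arc.arc ex ey u ξ) j) → ∀ j ≤ t, Arc.arc ex ey u ξ' j = Arc.arc ex ey u ξ j) := by
  refine ⟨?_, fun k j hj => Arc.agree h j hj fun l hl => k l (by omega)⟩
  cases t with
  | zero => simp
  | succ t =>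
    simp only [Nat.lt_succ_iff]
    exact Arc.run_iff hr h (by omega)

variable {ws : Fin T → Fin T} {near : Λ → Λ → Prop}

open Classical in
/-- multiplicity of a set of slots. -/
lemma mult_pt (hws : ∀ s, ws s ≤ s) {Bn n1 : ℕ} (hB : (univ.image ws).card ≤ Bn) (S : Finset Λ)
    (hS : (univ.filter fun y => ∃ x ∈ S, near y x).card ≤ n1) (K : ℕ) (ξ : Fin T → Bool) :
    (univ.filter fun r : Λ => ∃ v ∈ Arc.Al ex ey (Arc.spd ws near) (0, r) (K * T) ξ, v.2 ∈ S).card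
      ≤ K * (Bn * n1) := by
  have sub : (univ.filter fun r : Λ =>
      ∃ v ∈ Arc.Al ex ey (Arc.spd ws near) (0, r) (K * T) ξ, v.2 ∈ S) ⊆
      (range K ×ˢ (univ.image ws ×ˢ univ.filter fun y => ∃ x ∈ S, near y x)).image
        fun z => ((Sg ex ey ξ).symm^[z.1 * T + z.2.1.val] z.2).2 := by
    intro r hr
    obtain ⟨⟨s, x⟩, hx, hS⟩ := (mem_filter.1 hr).2
    obtain ⟨i, hi, hr, e⟩ := Arc.mem_Al.1 hx
    have h1 := hr i le_rfl
    have h2 := Arc.arc_time ex ey (0, r) ξ i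
    simp only [Arc.spd, e] at h1
    simp only [e, Fin.val_zero, zero_add] at h2
    have h3 : (ws s).val ≤ s.val := hws s
    have h4 := Nat.div_add_mod i T
    have h5 : i - (s.val - (ws s).val) = i / T * T + (ws s).val := by
      rw [mul_comm]; omega
    rw [h5] at h1
    have h6 : Arc.arc ex ey (0, r) ξ (i / T * T + (ws s).val) =
        (ws s, (Arc.arc ex ey (0, r) ξ (i / T * T + (ws s).val)).2) := by
      refine Prod.ext (Fin.ext ?_) rfl
      rw [Arc.arc_time]; simp [Nat.mod_eq_of_lt (ws s).2]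
    refine mem_image.2 ⟨(i / T, (ws s, _)), mem_product.2 ⟨mem_range.2 (Nat.div_lt_of_lt_mul
      (by rwa [mul_comm])), mem_product.2 ⟨mem_image_of_mem _ (mem_univ s),
        mem_filter.2 ⟨mem_univ _, x, hS, h1⟩⟩⟩, ?_⟩
    simp only
    rw [← h6, Arc.arc, Function.LeftInverse.iterate (Sg ex ey ξ).symm_apply_apply _ _]
  refine (card_le_card sub).trans (card_image_le.trans ?_)
  rw [card_product, card_product, card_range]
  gcongr

end Crest.Agent.N337.TK
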