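import Crest.Agent.N337.TK.Blk
import Crest.Agent.N337.TK.Dp

/-!
# Row 337, TK: the block terms (all classes) and TKb
-/

set_option autoImplicit false
set_option linter.unusedSectionVars false

namespace Crest.Agent.N337.TK

open Finset Crest.Agent.N337.Rep Crest.Agent.N337.LY0 Crest.Agent.N337.Op Crest.Agent.N337.Gas

lemma ex_sum' {Ω κ : Type} [Fintype Ω] (μ : Ω → ℝ) (s : Finset κ) (f : κ → Ω → ℝ) :
    Op.ex μ (fun ω => ∑ k ∈ s, f k ω) = ∑ k ∈ s, Op.ex μ (f k) := by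
  simp only [Op.ex, mul_sum]; exact sum_comm

lemma var_sum_le {Ω κ : Type} [Fintype Ω] [DecidableEq Ω] {μ : Ω → ℝ} (hμ : ∀ ω, 0 ≤ μ ω)
    (s : Finset κ) (f : κ → Ω → ℝ) :
    var μ (fun ω => ∑ k ∈ s, f k ω) ≤ s.card * ∑ k ∈ s, var μ (f k) := by
  simp only [var, nsq_eq_ex]
  rw [← ex_sum', ← ex_mul, ex_sum']
  exact ex_mono hμ fun ω => by rw [← sum_sub_distrib]; exact sq_sum_le_card_mul_sum_sq

variable {Λ : Type} [Fintype Λ] [DecidableEq Λ] {T : ℕ} [NeZero T] {ex ey : Fin T → Λ}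
  {p : Fin T → ℝ} {v a b c D : Lp T Λ → ℝ} {ws : Fin T → Fin T} {near : Λ → Λ → Prop}
  {Z : Λ → Finset Λ} {w x A : Finset (Lp T Λ)} {g : Lp T Λ}

lemma wd_pos {p : Fin T → ℝ} (h : qq ex ey p {g} ≠ 0) : 0 < wd g := by
  obtain ⟨ξ, -, hξ⟩ := qq_supp h
  obtain ⟨u, rfl⟩ := mem_L.1 (singleton_subset_iff.1 hξ)
  rw [← wind_eq_wd]; exact Arc.wind_pos ξ u

lemma U_congr (h : ∀ g, g ∉ w → 0 < wd g → a g = b g) : U ex ey p a w = U ex ey p b w := by
  rw [U_eq, U_eq]
  refine sum_congr rfl fun g _ => ?_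
  unfold Up
  split_ifs with k
  · simp
  · by_cases z : qq ex ey (pin ex ey p w) {g} = 0
    · simp [z]
    · rw [h g k (wd_pos z)]

lemma U_child (h : qq ex ey p (x ∪ A) ≠ 0) (c : Lp T Λ → ℝ) :
    U ex ey (pin ex ey p x) (off (· ∈ x) c) A = U ex ey p c (x ∪ A) := by
  rw [U, U, pin_pin h]
  congr 2; funext g
  simp only [off, mem_union]
  by_cases a : g ∈ x <;> by_cases b : g ∈ A <;> simp [a, b]

/-- the dyadic class of a loop. -/
def cl (k : ℕ) (a : Lp T Λ → ℝ) (g : Lp T Λ) : ℝ :=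
  if 0 < wd g ∧ Nat.log 2 (wd g) = k then a g else 0

lemma cl_supp {k : ℕ} (h : cl k a g ≠ 0) : a g ≠ 0 ∧ 2 ^ k ≤ wd g ∧ wd g < 2 * 2 ^ k := by
  unfold cl at h
  split_ifs at h with z
  · obtain ⟨z1, rfl⟩ := z
    exact ⟨h, Nat.pow_log_le_self 2 z1.ne', by
      rw [← pow_succ']; exact Nat.lt_pow_succ_log_self one_lt_two _⟩
  · exact absurd rfl h

lemma sum_cl {Km : ℕ} (h : ∀ g, a g ≠ 0 → wd g ≤ Km) (hg : 0 < wd g) :
    ∑ k ∈ range (Nat.log 2 Km + 1), cl k a g = a g := by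
  simp only [cl, hg, true_and, sum_ite_eq, mem_range]
  split_ifs with z
  · rfl
  · by_contra y
    exact z (Nat.lt_succ_of_le (Nat.log_mono_right (h g (Ne.symm y))))

lemma sum_cl_sq (s : Finset ℕ) (a f : Lp T Λ → ℝ) (hf : ∀ g, 0 ≤ f g) (g : Lp T Λ) :
    ∑ k ∈ s, cl k a g ^ 2 * f g ≤ a g ^ 2 * f g := by
  rw [← sum_mul]
  refine mul_le_mul_of_nonneg_right ?_ (hf g)
  by_cases z : 0 < wd g
  · simp only [cl, z, true_and, ite_pow, ne_eq, OfNat.ofNat_ne_zero, not_false_eq_true, zero_pow,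
      sum_ite_eq]
    split_ifs; exacts [le_rfl, sq_nonneg _]
  · simp [cl, z, sq_nonneg]

/-- **block terms.** -/
theorem blk (hp : ∀ s, 0 ≤ p s ∧ p s ≤ 1) (hv : ∀ g, 0 ≤ v g) {N n1 n2 Bn k0 Km : ℕ}
    (hB : Blk ex ey near Z N n1 n2 p v) (hws : ∀ s, ws s ≤ s) (hBn : (univ.image ws).card ≤ Bn)
    {q δ : ℝ} (q0 : 0 < q) (δ0 : 0 ≤ δ) (hD : ∀ g, 0 ≤ D g ∧ D g ≤ 1) (hδ : ∀ g, D g ≤ δ * wd g)
    (ha : ∀ g, a g ≠ 0 → Slw ex ey (Arc.spd ws near) g ∧ wd g ≤ Km)
    (Gc : Finset (Lp T Λ) → Lp T Λ → Prop) (hit : ∀ w, nu (qq ex ey p) v w ≠ 0 →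
      Hit ex ey (Arc.spd ws near) Z (pin ex ey p w) (fun g => Gc w g ∧ 2 ^ k0 ≤ wd g) q) :
    var (nu (qq ex ey p) v) (U ex ey p fun g => a g * D g) ≤
      κB q δ Bn N n1 n2 k0 Km * Op.ex (nu (qq ex ey p) v) (U ex ey p fun g => a g ^ 2 * D g) +
      cB Bn N n1 Km * Op.ex (nu (qq ex ey p) v)
        fun w => U ex ey p (fun g => a g ^ 2 * (D g * i1 (¬ Gc w g))) w := by
  obtain ⟨ι, _, _, B, Bp, h1, h2, h3, h4, h5, h6, h7⟩ := hB
  have pv := pr_nu (cpt_qq (ex := ex) (ey := ey) hp) hv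
  set M : ℝ := Bn * n1 with hM
  have M0 : 0 ≤ M := by positivity
  set Lg : ℝ := Nat.log 2 N + 1 with hLg
  have L0 : 0 ≤ Lg := by positivity
  set X : ℕ → ℝ := fun k => Op.ex (nu (qq ex ey p) v) (U ex ey p fun g => cl k a g ^ 2 * D g)
  set Y : ℕ → ℝ := fun k => Op.ex (nu (qq ex ey p) v)
    fun w => U ex ey p (fun g => cl k a g ^ 2 * (D g * i1 (¬ Gc w g))) w
  have X0 : ∀ k, 0 ≤ X k := fun k =>
    ex_nn pv.nn (U_nn hp fun g => mul_nonneg (sq_nonneg _) (hD g).1)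
  have Y0 : ∀ k, 0 ≤ Y k := fun k => ex_nn pv.nn fun w =>
    U_nn hp (fun g => mul_nonneg (sq_nonneg _) (mul_nonneg (hD g).1 (i1_nn _))) w
  have one : ∀ k, var (nu (qq ex ey p) v) (U ex ey p fun g => cl k a g * D g) ≤
      Lg * (192 * M * δ * 2 ^ k0 + 3072 * q * M + 24 * n2 / 2 ^ k0) * X k + Lg * (48 * M) * Y k := by
    intro k
    have hc : ∀ g, cl k a g * D g ≠ 0 →
        Slw ex ey (Arc.spd ws near) g ∧ 2 ^ k ≤ wd g ∧ wd g ≤ 2 * 2 ^ k := fun g h =>
      have := cl_supp (left_ne_zero_of_mul h); ⟨(ha g this.1).1, this.2.1, this.2.2.le⟩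
    have K0 : (0 : ℝ) < 2 ^ k := by positivity
    have := X0 k; have := Y0 k
    rcases lt_or_ge k k0 with hk | hk
    · have z := blk1 (Z := fun _ => ∅) (n2 := 0) hp hv h1 h2 h3 h4 h5 h6 (fun _ => by simp) hws hBn
        (q := 1 / 64) (by norm_num) (Nat.two_pow_pos k) hc (fun _ _ => False)
        fun _ _ _ _ _ _ h => h.elim
      have y : Op.ex (nu (qq ex ey p) v) (U ex ey p fun g => (cl k a g * D g) ^ 2) ≤
          δ * 2 ^ k0 * X k := by
        rw [← ex_mul]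
        refine ex_mono pv.nn fun w => ?_
        rw [← U_mul]
        refine U_mono hp (fun g => ?_) w
        by_cases e : cl k a g = 0
        · simp [e]
        · have a1 : (wd g : ℝ) ≤ 2 ^ k0 := by
            have := (cl_supp e).2.2.le.trans (show 2 * 2 ^ k ≤ 2 ^ k0 by
              rw [← pow_succ']; exact Nat.pow_le_pow_right two_pos hk)
            exact_mod_cast this
          have a2 := (hδ g).trans (mul_le_mul_of_nonneg_left a1 δ0)
          nlinarith [mul_le_mul_of_nonneg_left a2 (mul_nonneg (sq_nonneg (cl k a g)) (hD g).1)]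
      simp only [not_false_eq_true, i1_pos trivial, mul_one] at z
      push_cast at z
      refine z.trans ?_
      calc _ = Lg * (96 * M) * Op.ex (nu (qq ex ey p) v)
            (U ex ey p fun g => (cl k a g * D g) ^ 2) := by rw [hM]; field_simp; ring
        _ ≤ Lg * (96 * M) * (δ * 2 ^ k0 * X k) := by gcongr
        _ ≤ _ := by
          have : 0 ≤ Lg * (96 * M * δ * 2 ^ k0 + 3072 * q * M + 24 * n2 / 2 ^ k0) * X k +
            Lg * (48 * M) * Y k := by positivity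
          linarith
    · have z := blk1 hp hv h1 h2 h3 h4 h5 h6 h7 hws hBn q0 (Nat.two_pow_pos k) hc _ hit
      have y1 : Op.ex (nu (qq ex ey p) v) (U ex ey p fun g => (cl k a g * D g) ^ 2) ≤ X k :=
        ex_mono pv.nn (U_mono hp (sqD_le hD _))
      have y2 : Op.ex (nu (qq ex ey p) v) (fun w => U ex ey p (fun g => (cl k a g * D g) ^ 2 *
          i1 (¬ (Gc w g ∧ 2 ^ k0 ≤ wd g))) w) ≤ Y k := by
        refine ex_mono pv.nn fun w => U_mono hp (fun g => ?_) w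
        by_cases e : cl k a g = 0
        · simp [e]
        · rw [i1_congr (not_congr (and_iff_left
            ((Nat.pow_le_pow_right two_pos hk).trans (cl_supp e).2.1))), ← mul_assoc]
          exact mul_le_mul_of_nonneg_right (sqD_le hD _ g) (i1_nn _)
      have y3 : (n2 : ℝ) / 2 ^ k ≤ n2 / 2 ^ k0 := by gcongr; norm_num
      push_cast at z
      refine z.trans ?_
      calc _ ≤ 24 * Lg * ((64 * q * (2 * 2 ^ k * M) + n2) * (X k / 2 ^ k) +
            2 * 2 ^ k * M * (Y k / 2 ^ k)) := by gcongr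
        _ = Lg * (3072 * q * M + 24 * (n2 / 2 ^ k)) * X k + Lg * (48 * M) * Y k := by
          field_simp; ring
        _ ≤ Lg * (3072 * q * M + 24 * (n2 / 2 ^ k0)) * X k + Lg * (48 * M) * Y k := by gcongr
        _ ≤ _ := by
          have : 0 ≤ Lg * (192 * M * δ * 2 ^ k0) * X k := by positivity
          rw [mul_div_assoc]; linarith
  have e : (U ex ey p fun g => a g * D g) =
      fun w => ∑ k ∈ range (Nat.log 2 Km + 1), U ex ey p (fun g => cl k a g * D g) w := by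
    funext w
    rw [← U_sum]
    exact U_congr fun g _ hg => by rw [← sum_mul, sum_cl (fun g h => (ha g h).2) hg]
  have sX : ∑ k ∈ range (Nat.log 2 Km + 1), X k ≤
      Op.ex (nu (qq ex ey p) v) (U ex ey p fun g => a g ^ 2 * D g) := by
    rw [← ex_sum']
    exact ex_mono pv.nn fun w => by
      rw [← U_sum]; exact U_mono hp (sum_cl_sq _ a D fun g => (hD g).1) w
  have sY : ∑ k ∈ range (Nat.log 2 Km + 1), Y k ≤ Op.ex (nu (qq ex ey p) v)
      fun w => U ex ey p (fun g => a g ^ 2 * (D g * i1 (¬ Gc w g))) w := by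
    rw [← ex_sum']
    exact ex_mono pv.nn fun w => by
      rw [← U_sum]
      exact U_mono hp (sum_cl_sq _ a _ fun g => mul_nonneg (hD g).1 (i1_nn _)) w
  rw [e]
  refine (var_sum_le pv.nn _ _).trans ?_
  have t1 := sum_le_sum fun k (_ : k ∈ range (Nat.log 2 Km + 1)) => one k
  rw [sum_add_distrib, ← mul_sum, ← mul_sum] at t1
  have t2 := add_le_add (mul_le_mul_of_nonneg_left sX (show 0 ≤ Lg * (192 * M * δ * 2 ^ k0 +
    3072 * q * M + 24 * n2 / 2 ^ k0) by positivity))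
    (mul_le_mul_of_nonneg_left sY (show 0 ≤ Lg * (48 * M) by positivity))
  refine (mul_le_mul_of_nonneg_left (t1.trans t2) (Nat.cast_nonneg _)).trans (le_of_eq ?_)
  generalize Op.ex (nu (qq ex ey p) v) (U ex ey p fun g => a g ^ 2 * D g) = y1
  generalize (Op.ex (nu (qq ex ey p) v)
    fun w => U ex ey p (fun g => a g ^ 2 * (D g * i1 (¬ Gc w g))) w) = y2
  rw [card_range, κB, cB, hM, hLg]
  push_cast
  ring

variable {u : Lp T Λ → ℝ} {Sa : Lp T Λ → Prop} {Gw : Finset (Lp T Λ) → Lp T Λ → Prop}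
  {Bad : Finset (Lp T Λ) → Prop} {κ ε q δ C0 nk Nr : ℝ} {Bn N n1 n2 k0 Km : ℕ}

/-- **the fibre terms of LP** (no volume factor). -/
theorem blk_fib (H : HA ex ey p u D Sa Gw κ ε)
    (K : HB ex ey p u D Sa Gw Bad ws near Z ε q δ C0 nk Nr Bn N n1 n2 k0 Km)
    {I : Type} [Fintype I] {m : I → ℝ} {x : I → Finset (Lp T Λ)} {v : I → Lp T Λ → ℝ}
    (m0 : ∀ i, 0 ≤ m i) (hm : ∀ i, m i ≠ 0 → qq ex ey p (x i) ≠ 0 ∧ (∀ g, 0 ≤ v i g) ∧
      Blk ex ey near Z N n1 n2 (pin ex ey p (x i)) (v i))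
    (dom : ∀ G : Finset (Lp T Λ) → ℝ, (∀ w, 0 ≤ G w) →
      ∑ i, m i * Op.ex (nu (qq ex ey (pin ex ey p (x i))) (v i)) (fun A => G (x i ∪ A)) ≤
        nk * Op.ex (nu (qq ex ey p) u) G) (ha : ∀ g, a g ≠ 0 → Sa g) :
    ∑ i, m i * var (nu (qq ex ey (pin ex ey p (x i))) (v i))
      (fun A => U ex ey p (fun g => a g * D g) (x i ∪ A)) ≤
      nk * ((κB q δ Bn N n1 n2 k0 Km + cB Bn N n1 Km * ε) *
        Op.ex (nu (qq ex ey p) u) (U ex ey p fun g => a g ^ 2 * D g)) := by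
  have hu0 := fun g => (H.hu g).1
  have hν := pr_nu (cpt_qq (ex := ex) (ey := ey) H.hp) hu0
  set F := U ex ey p fun g => a g * D g with hF
  set Y := Op.ex (nu (qq ex ey p) u) (U ex ey p fun g => a g ^ 2 * D g) with hY
  have aD0 : ∀ g, 0 ≤ a g ^ 2 * D g := fun g => mul_nonneg (sq_nonneg _) (H.hD g).1
  have r := rare_sum (c := fun g => a g ^ 2 * D g) (E := fun g w => ¬ Gw w g) aD0
    fun g hg => H.rare g (ha g fun z => hg (by simp [z]))
  have k0' : 0 ≤ κB q δ Bn N n1 n2 k0 Km := by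
    have := K.q0; have := K.δ0; unfold κB; positivity
  have c0' : 0 ≤ cB Bn N n1 Km := by unfold cB; positivity
  set G : Finset (Lp T Λ) → ℝ := fun w =>
    κB q δ Bn N n1 n2 k0 Km * U ex ey p (fun g => a g ^ 2 * D g) w +
      cB Bn N n1 Km * U ex ey p (fun g => a g ^ 2 * D g * i1 (¬ Gw w g)) w with hG
  have G0 : ∀ w, 0 ≤ G w := fun w => add_nonneg (mul_nonneg k0' (U_nn H.hp aD0 w))
    (mul_nonneg c0' (U_nn H.hp (fun g => mul_nonneg (aD0 g) (i1_nn _)) w))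
  have b : ∀ i, m i * var (nu (qq ex ey (pin ex ey p (x i))) (v i)) (fun A => F (x i ∪ A)) ≤
      m i * Op.ex (nu (qq ex ey (pin ex ey p (x i))) (v i)) fun A => G (x i ∪ A) := by
    intro i
    by_cases z : m i = 0
    · simp [z]
    refine mul_le_mul_of_nonneg_left ?_ (m0 i)
    obtain ⟨a1, a2, a3⟩ := hm i z
    have hp' := pin_mem (ex := ex) (ey := ey) H.hp (x i)
    have pv := pr_nu (cpt_qq (ex := ex) (ey := ey) hp') a2
    have sup : ∀ A, nu (qq ex ey (pin ex ey p (x i))) (v i) A ≠ 0 →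
        nu (qq ex ey p) u (x i ∪ A) ≠ 0 := by
      intro A hA h0
      have t := dom (fun w => i1 (w = x i ∪ A)) fun _ => i1_nn _
      rw [show Op.ex (nu (qq ex ey p) u) (fun w => i1 (w = x i ∪ A)) = 0 from
        sum_eq_zero fun w _ => by
          by_cases e : w = x i ∪ A
          · rw [e, h0, zero_mul]
          · simp only [i1_neg e, mul_zero], mul_zero] at t
      have t1 := (single_le_sum (f := fun j => m j * Op.ex (nu (qq ex ey (pin ex ey p (x j))) (v j))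
        fun A' => i1 (x j ∪ A' = x i ∪ A)) (fun j _ => by
          by_cases y : m j = 0
          · simp [y]
          · exact mul_nonneg (m0 j) (ex_nn (nu_nn (cpt_qq (pin_mem H.hp _)) (hm j y).2.1)
              fun _ => i1_nn _)) (mem_univ i)).trans t
      have t2 := single_le_sum (f := fun A' => nu (qq ex ey (pin ex ey p (x i))) (v i) A' *
        i1 (x i ∪ A' = x i ∪ A)) (fun A' _ => mul_nonneg (pv.nn _) (i1_nn _)) (mem_univ A)
      simp only [i1_pos, mul_one] at t2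
      exact absurd (mul_pos ((m0 i).lt_of_ne' z) (((pv.nn A).lt_of_ne' hA).trans_le t2))
        (not_lt.2 t1)
    have eo : ∀ f : Lp T Λ → ℝ → ℝ, (∀ g, f g 0 = 0) →
        (fun g => f g (off (· ∈ x i) a g)) = off (· ∈ x i) fun g => f g (a g) := fun f h => by
      funext g; unfold off; split_ifs <;> simp [h]
    have t := blk hp' a2 a3 K.hws K.hB K.q0 K.δ0 H.hD K.small (a := off (· ∈ x i) a)
      (fun g h => K.slow g (ha g fun y => h (by simp [off, y])))
      (fun A g => g ∉ x i ∪ A ∧ Gw (x i ∪ A) g) (k0 := k0) fun A hA => by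
        rw [pin_pin (nu_supp (sup A hA)).1]
        simpa only [and_assoc] using K.hit _ (sup A hA)
    rw [eo (fun g y => y * D g) (by simp), eo (fun g y => y ^ 2 * D g) (by simp),
      var_congr fun A hA => U_child (nu_supp (sup A hA)).1 _, ← ex_mul, ← ex_mul, ← ex_add] at t
    refine t.trans (le_of_eq (ex_congr fun A hA => ?_))
    rw [eo (fun g y => y ^ 2 * (D g * i1 (¬ (g ∉ x i ∪ A ∧ Gw (x i ∪ A) g)))) (by simp),
      U_child (nu_supp (sup A hA)).1, U_child (nu_supp (sup A hA)).1]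
    simp only [G]
    congr 2
    exact U_congr fun g hg _ => by rw [i1_congr (not_congr (and_iff_right hg)), mul_assoc]
  have s1 := (sum_le_sum fun i _ => b i).trans (dom G G0)
  have nk0 : 0 ≤ nk := by
    have t := dom (fun _ => 1) fun _ => zero_le_one
    rw [hν.ex_const, mul_one] at t
    refine le_trans (sum_nonneg fun j _ => ?_) t
    by_cases y : m j = 0
    · simp [y]
    · exact mul_nonneg (m0 j) (ex_nn (nu_nn (cpt_qq (pin_mem H.hp _)) (hm j y).2.1)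
        fun _ => zero_le_one)
  have s2 : Op.ex (nu (qq ex ey p) u) G ≤ (κB q δ Bn N n1 n2 k0 Km + cB Bn N n1 Km * ε) * Y := by
    rw [hG, ex_add, ex_mul, ex_mul]
    nlinarith [mul_le_mul_of_nonneg_left r c0']
  exact s1.trans (mul_le_mul_of_nonneg_left s2 nk0)

/-- **TKb.** -/
theorem tkb : TKbStmt := by
  intro Λ _ _ T _ ex ey p u D Sa Gw Bad ws near Z κ ε q δ C0 nk Nr Bn N n1 n2 k0 Km H K a ha
  obtain ⟨I, _, m, x, v, m0, hm, dom, lp⟩ := K.lp
  have hu0 := fun g => (H.hu g).1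
  have hν := pr_nu (cpt_qq (ex := ex) (ey := ey) H.hp) hu0
  set F := U ex ey p fun g => a g * D g with hF
  set n : ℝ := (Fintype.card Λ : ℝ) with hn
  have n0 : 0 ≤ n := Nat.cast_nonneg _
  have ε0 := H.ε0
  set Y := Op.ex (nu (qq ex ey p) u) (U ex ey p fun g => a g ^ 2 * D g) with hY
  have m3 : Op.ex (nu (qq ex ey p) u) (U ex ey p fun g => (a g * D g) ^ 2) ≤ Y :=
    ex_mono hν.nn (U_mono H.hp (sqD_le H.hD a))
  have r2 : Op.ex (nu (qq ex ey p) u) (fun w => i1 (Bad w) * F w ^ 2) ≤ n * (ε * Y) :=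
    (rare_sq H.hp hu0 fun g hg => K.bad g (ha g (left_ne_zero_of_mul hg))).trans (by gcongr)
  have r3 : Op.ex (nu (qq ex ey p) u) (fun w => F w ^ 2) ≤ n * Y :=
    (ex_mono hν.nn (U_sq_le H.hp _)).trans (by rw [ex_mul]; gcongr)
  have d := H.dir K.bad K.death K.birth ha
  have s1 := blk_fib H K m0 hm dom ha
  have s3 : Op.ex (nu (qq ex ey p) u) (fun w => Nr * (ε + i1 (Bad w)) * F w ^ 2) ≤
      2 * Nr * n * ε * Y := by
    simp only [mul_assoc Nr, add_mul]
    rw [ex_mul, ex_add, ex_mul]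
    nlinarith [mul_le_mul_of_nonneg_left (add_le_add (mul_le_mul_of_nonneg_left r3 ε0) r2) K.Nr0]
  refine (lp F).trans ?_
  have := mul_le_mul_of_nonneg_left (add_le_add d s1)
    K.hC0
  rw [κb]
  linarith

end Crest.Agent.N337.TK
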